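import Mathlib

/-!
# P157: definitions for the existence of the limiting pressure

The potentials treated are `f s = c + log (1 - u s)` with `u s = ∑ j, b j * cos (ω j * s)`,
`b j ≥ 0`, `∑ j, b j < 1` (one minus a positive definite trigonometric polynomial).
-/

open MeasureTheory ProbabilityTheory

namespace Vale.Agent.Lib.P157

/-- The spin value of a bit. -/
def sg (x : Bool) : ℝ := if x then 1 else -1

/-- The trigonometric polynomial `u s = ∑ j, b j * cos (ω j * s)`. -/
noncomputable def uFun {J : Type*} [Fintype J] (b ω : J → ℝ) (s : ℝ) : ℝ :=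
  ∑ j, b j * Real.cos (ω j * s)

/-- The standard Gaussian measure on `Fin n → ℝ`. -/
noncomputable def gauss (n : ℕ) : Measure (Fin n → ℝ) :=
  Measure.pi (fun _ => gaussianReal 0 1)

/-- The partition function of the Ising perceptron with weight `1 - u` per pattern, for patterns
`G a` in `ℝ^n` acting through the coefficient vectors `κ a`: the pattern `a` sees the
configuration `x` through `∑ i, G a i * κ a i * sg (x i)`. -/
noncomputable def Zc {J : Type*} [Fintype J] (b ω : J → ℝ) {ι : Type*} [Fintype ι] {n : ℕ}
    (κ : ι → Fin n → ℝ) (G : ι → Fin n → ℝ) : ℝ :=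
  ∑ x : Fin n → Bool, ∏ a, (1 - uFun b ω (∑ i, G a i * κ a i * sg (x i)))

/-- The expected logarithm of the partition function, for independent standard Gaussian
patterns. -/
noncomputable def Ac {J : Type*} [Fintype J] (b ω : J → ℝ) {ι : Type*} [Fintype ι] {n : ℕ}
    (κ : ι → Fin n → ℝ) : ℝ :=
  ∫ G, Real.log (Zc b ω κ G) ∂(Measure.pi (fun _ : ι => gauss n))

/-- The canonical system: `k` patterns on `n` spins, each pattern acting through
`(∑ i, G a i * sg (x i)) / sqrt n`. -/
noncomputable def Acan {J : Type*} [Fintype J] (b ω : J → ℝ) (n k : ℕ) : ℝ :=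
  Ac b ω (fun (_ : Fin k) (_ : Fin n) => (Real.sqrt n)⁻¹)

/-- The law of a coin that shows `true` with probability `p`. -/
noncomputable def bern (p : ℝ) : Measure Bool :=
  ENNReal.ofReal p • Measure.dirac true + ENNReal.ofReal (1 - p) • Measure.dirac false

/-- Coefficient vector of a pattern living on the first block of `Fin (N1 + N2)`. -/
noncomputable def blockCoef1 (N1 N2 : ℕ) : Fin (N1 + N2) → ℝ :=
  Fin.append (fun _ : Fin N1 => (Real.sqrt N1)⁻¹) (fun _ : Fin N2 => 0)

/-- Coefficient vector of a pattern living on the second block of `Fin (N1 + N2)`. -/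
noncomputable def blockCoef2 (N1 N2 : ℕ) : Fin (N1 + N2) → ℝ :=
  Fin.append (fun _ : Fin N1 => 0) (fun _ : Fin N2 => (Real.sqrt N2)⁻¹)

end Vale.Agent.Lib.P157
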