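import Mathlib
import Vale.Agent.Lib.P157.Lim.Defs

/-!
# P157: basic bounds, positivity and measurability for the partition function `Zc`
-/

open MeasureTheory ProbabilityTheory

namespace Vale.Agent.Lib.P157

variable {J : Type*} [Fintype J] (b ω : J → ℝ)

lemma sg_sq (x : Bool) : sg x ^ 2 = 1 := by
  cases x <;> simp [sg]

lemma abs_sg (x : Bool) : |sg x| = 1 := by
  cases x <;> simp [sg]

lemma sum_b_nonneg (hb : ∀ j, 0 ≤ b j) : 0 ≤ ∑ j, b j :=
  Finset.sum_nonneg fun j _ => hb j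

lemma abs_uFun_le (hb : ∀ j, 0 ≤ b j) (s : ℝ) : |uFun b ω s| ≤ ∑ j, b j := by
  unfold uFun
  refine (Finset.abs_sum_le_sum_abs _ _).trans (Finset.sum_le_sum fun j _ => ?_)
  rw [abs_mul, abs_of_nonneg (hb j)]
  exact mul_le_of_le_one_right (hb j) (Real.abs_cos_le_one _)

lemma continuous_uFun : Continuous (uFun b ω) := by
  unfold uFun
  fun_prop

lemma measurable_uFun : Measurable (uFun b ω) := (continuous_uFun b ω).measurable

lemma one_sub_uFun_lower (hb : ∀ j, 0 ≤ b j) (s : ℝ) : 1 - ∑ j, b j ≤ 1 - uFun b ω s := by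
  have := le_of_abs_le (abs_uFun_le b ω hb s)
  linarith

lemma one_sub_uFun_upper (hb : ∀ j, 0 ≤ b j) (s : ℝ) : 1 - uFun b ω s ≤ 1 + ∑ j, b j := by
  have := neg_le_of_abs_le (abs_uFun_le b ω hb s)
  linarith

lemma one_sub_uFun_pos (hb : ∀ j, 0 ≤ b j) (hb1 : ∑ j, b j < 1) (s : ℝ) :
    0 < 1 - uFun b ω s :=
  lt_of_lt_of_le (by linarith) (one_sub_uFun_lower b ω hb s)

lemma log_one_add_le (hb : ∀ j, 0 ≤ b j) (hb1 : ∑ j, b j < 1) :
    Real.log (1 + ∑ j, b j) ≤ -Real.log (1 - ∑ j, b j) := by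
  have h0 := sum_b_nonneg b hb
  have h1 : 0 < 1 - ∑ j, b j := by linarith
  have h2 : 0 < 1 + ∑ j, b j := by linarith
  rw [← Real.log_inv]
  apply Real.log_le_log h2
  rw [le_inv_comm₀ h2 h1, inv_eq_one_div, le_div_iff₀ h2]
  nlinarith

lemma neg_log_one_sub_nonneg (hb : ∀ j, 0 ≤ b j) (hb1 : ∑ j, b j < 1) :
    0 ≤ -Real.log (1 - ∑ j, b j) := by
  have h0 := sum_b_nonneg b hb
  have : Real.log (1 - ∑ j, b j) ≤ 0 := Real.log_nonpos (by linarith) (by linarith)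
  linarith

instance gauss_isProbabilityMeasure (n : ℕ) : IsProbabilityMeasure (gauss n) := by
  unfold gauss
  infer_instance

section Zc

variable {ι : Type*} [Fintype ι] {n : ℕ}

lemma Zc_term_pos (hb : ∀ j, 0 ≤ b j) (hb1 : ∑ j, b j < 1) (κ G : ι → Fin n → ℝ)
    (x : Fin n → Bool) : 0 < ∏ a, (1 - uFun b ω (∑ i, G a i * κ a i * sg (x i))) :=
  Finset.prod_pos fun _ _ => one_sub_uFun_pos b ω hb hb1 _

lemma Zc_lower (hb : ∀ j, 0 ≤ b j) (hb1 : ∑ j, b j < 1) (κ G : ι → Fin n → ℝ) :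
    (1 - ∑ j, b j) ^ Fintype.card ι * 2 ^ n ≤ Zc b ω κ G := by
  unfold Zc
  have h1 : ∀ x : Fin n → Bool, (1 - ∑ j, b j) ^ Fintype.card ι
      ≤ ∏ a, (1 - uFun b ω (∑ i, G a i * κ a i * sg (x i))) := by
    intro x
    calc (1 - ∑ j, b j) ^ Fintype.card ι = ∏ _a : ι, (1 - ∑ j, b j) := by simp
      _ ≤ ∏ a, (1 - uFun b ω (∑ i, G a i * κ a i * sg (x i))) :=
        Finset.prod_le_prod (fun _ _ => by linarith) (fun a _ => one_sub_uFun_lower b ω hb _)
  calc (1 - ∑ j, b j) ^ Fintype.card ι * 2 ^ n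
      = ∑ _x : Fin n → Bool, (1 - ∑ j, b j) ^ Fintype.card ι := by
        simp [mul_comm]
    _ ≤ _ := Finset.sum_le_sum fun x _ => h1 x

lemma Zc_upper (hb : ∀ j, 0 ≤ b j) (hb1 : ∑ j, b j < 1) (κ G : ι → Fin n → ℝ) :
    Zc b ω κ G ≤ (1 + ∑ j, b j) ^ Fintype.card ι * 2 ^ n := by
  unfold Zc
  have h1 : ∀ x : Fin n → Bool, ∏ a, (1 - uFun b ω (∑ i, G a i * κ a i * sg (x i)))
      ≤ (1 + ∑ j, b j) ^ Fintype.card ι := by
    intro x
    calc ∏ a, (1 - uFun b ω (∑ i, G a i * κ a i * sg (x i))) ≤ ∏ _a : ι, (1 + ∑ j, b j) :=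
        Finset.prod_le_prod (fun a _ => (one_sub_uFun_pos b ω hb hb1 _).le)
          (fun a _ => one_sub_uFun_upper b ω hb _)
      _ = (1 + ∑ j, b j) ^ Fintype.card ι := by simp
  calc _ ≤ ∑ _x : Fin n → Bool, (1 + ∑ j, b j) ^ Fintype.card ι :=
        Finset.sum_le_sum fun x _ => h1 x
    _ = (1 + ∑ j, b j) ^ Fintype.card ι * 2 ^ n := by simp [mul_comm]

lemma Zc_pos (hb : ∀ j, 0 ≤ b j) (hb1 : ∑ j, b j < 1) (κ G : ι → Fin n → ℝ) :
    0 < Zc b ω κ G := by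
  have h0 := sum_b_nonneg b hb
  exact lt_of_lt_of_le (by positivity) (Zc_lower b ω hb hb1 κ G)

lemma log_Zc_le (hb : ∀ j, 0 ≤ b j) (hb1 : ∑ j, b j < 1) (κ G : ι → Fin n → ℝ) :
    Real.log (Zc b ω κ G) ≤ n * Real.log 2 + Fintype.card ι * Real.log (1 + ∑ j, b j) := by
  have h0 := sum_b_nonneg b hb
  have h := Real.log_le_log (Zc_pos b ω hb hb1 κ G) (Zc_upper b ω hb hb1 κ G)
  rw [Real.log_mul (by positivity) (by positivity), Real.log_pow, Real.log_pow] at h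
  linarith

lemma le_log_Zc (hb : ∀ j, 0 ≤ b j) (hb1 : ∑ j, b j < 1) (κ G : ι → Fin n → ℝ) :
    n * Real.log 2 + Fintype.card ι * Real.log (1 - ∑ j, b j) ≤ Real.log (Zc b ω κ G) := by
  have h0 := sum_b_nonneg b hb
  have h1 : 0 < 1 - ∑ j, b j := by linarith
  have h := Real.log_le_log (by positivity) (Zc_lower b ω hb hb1 κ G)
  rw [Real.log_mul (by positivity) (by positivity), Real.log_pow, Real.log_pow] at h
  linarith

lemma abs_log_Zc_le (hb : ∀ j, 0 ≤ b j) (hb1 : ∑ j, b j < 1) (κ G : ι → Fin n → ℝ) :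
    |Real.log (Zc b ω κ G)|
      ≤ n * Real.log 2 + Fintype.card ι * (-Real.log (1 - ∑ j, b j)) := by
  have h1 := log_Zc_le b ω hb hb1 κ G
  have h2 := le_log_Zc b ω hb hb1 κ G
  have h3 := log_one_add_le b hb hb1
  have h4 := neg_log_one_sub_nonneg b hb hb1
  have h5 : (0 : ℝ) ≤ n * Real.log 2 := by positivity
  have h6 : (0 : ℝ) ≤ Fintype.card ι := by positivity
  rw [abs_le]
  constructor
  · nlinarith
  · nlinarith

lemma continuous_Zc_uncurry :
    Continuous (fun P : (ι → Fin n → ℝ) × (ι → Fin n → ℝ) => Zc b ω P.1 P.2) := by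
  unfold Zc
  have hu := continuous_uFun b ω
  fun_prop

lemma measurable_Zc_uncurry :
    Measurable (fun P : (ι → Fin n → ℝ) × (ι → Fin n → ℝ) => Zc b ω P.1 P.2) :=
  (continuous_Zc_uncurry b ω).measurable

lemma continuous_Zc (κ : ι → Fin n → ℝ) : Continuous (fun G => Zc b ω κ G) := by
  unfold Zc
  have hu := continuous_uFun b ω
  fun_prop

lemma measurable_Zc (κ : ι → Fin n → ℝ) : Measurable (fun G => Zc b ω κ G) :=
  (continuous_Zc b ω κ).measurable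

lemma measurable_log_Zc (κ : ι → Fin n → ℝ) : Measurable (fun G => Real.log (Zc b ω κ G)) :=
  Real.measurable_log.comp (measurable_Zc b ω κ)

lemma integrable_log_Zc (hb : ∀ j, 0 ≤ b j) (hb1 : ∑ j, b j < 1) (κ : ι → Fin n → ℝ)
    (μ : Measure (ι → Fin n → ℝ)) [IsFiniteMeasure μ] :
    Integrable (fun G => Real.log (Zc b ω κ G)) μ :=
  Integrable.of_bound (measurable_log_Zc b ω κ).aestronglyMeasurable
    (n * Real.log 2 + Fintype.card ι * (-Real.log (1 - ∑ j, b j)))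
    (Filter.Eventually.of_forall fun G => by
      simpa [Real.norm_eq_abs] using abs_log_Zc_le b ω hb hb1 κ G)

lemma abs_Ac_le (hb : ∀ j, 0 ≤ b j) (hb1 : ∑ j, b j < 1) (κ : ι → Fin n → ℝ) :
    |Ac b ω κ| ≤ n * Real.log 2 + Fintype.card ι * (-Real.log (1 - ∑ j, b j)) := by
  unfold Ac
  have h := norm_integral_le_of_norm_le_const (μ := Measure.pi (fun _ : ι => gauss n))
    (f := fun G => Real.log (Zc b ω κ G))
    (C := n * Real.log 2 + Fintype.card ι * (-Real.log (1 - ∑ j, b j)))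
    (Filter.Eventually.of_forall fun G => by
      simpa [Real.norm_eq_abs] using abs_log_Zc_le b ω hb hb1 κ G)
  simpa [Real.norm_eq_abs] using h

lemma Ac_le (hb : ∀ j, 0 ≤ b j) (hb1 : ∑ j, b j < 1) (κ : ι → Fin n → ℝ) :
    Ac b ω κ ≤ n * Real.log 2 + Fintype.card ι * Real.log (1 + ∑ j, b j) := by
  unfold Ac
  have h := integral_mono (μ := Measure.pi (fun _ : ι => gauss n))
    (integrable_log_Zc b ω hb hb1 κ _) (integrable_const _)
    (fun G => log_Zc_le b ω hb hb1 κ G)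
  simpa using h

end Zc

end Vale.Agent.Lib.P157
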