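import Mathlib
import Vale.Agent.Lib.P157.Lim.Defs
import Vale.Agent.Lib.P157.Lim.ZcBasic

/-!
# P157: block factorisation of the expected log partition function

If every pattern lives on one of the two blocks of `Fin (N1 + N2)`, the system is a product of two
independent canonical systems, so `E log Z` splits as a sum.
-/

open MeasureTheory ProbabilityTheory

namespace Vale.Agent.Lib.P157

/-- Restricting a power of a probability measure along an injective map of the index types gives
the power over the smaller index type. -/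
lemma blocks_pi_map_comp {ι κ : Type*} [Fintype ι] [Fintype κ] {X : Type*} [MeasurableSpace X]
    (μ : Measure X) [IsProbabilityMeasure μ] (f : κ → ι) (hf : Function.Injective f) :
    (Measure.pi (fun _ : ι => μ)).map (fun x k => x (f k)) = Measure.pi (fun _ : κ => μ) := by
  have h1 : iIndepFun (fun (i : ι) (x : ι → X) => x i) (Measure.pi (fun _ : ι => μ)) :=
    iIndepFun_pi (X := fun _ => id) (fun _ => aemeasurable_id)
  have h2 : iIndepFun (fun (k : κ) (x : ι → X) => x (f k)) (Measure.pi (fun _ : ι => μ)) :=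
    h1.precomp hf
  have h3 := (iIndepFun_iff_map_fun_eq_pi_map
    (fun k => (measurable_pi_apply (f k)).aemeasurable)).1 h2
  rw [h3]
  congr 1
  ext k : 1
  exact (measurePreserving_eval (fun _ : ι => μ) (f k)).map_eq

/-- A marginal of the standard Gaussian measure along an injective map of coordinates. -/
lemma blocks_gauss_map {n m : ℕ} (c : Fin m → Fin n) (hc : Function.Injective c) :
    (gauss n).map (fun g i => g (c i)) = gauss m := by
  unfold gauss
  exact blocks_pi_map_comp (gaussianReal 0 1) c hc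

/-- The law of a sub-array of an array of independent standard Gaussians. -/
lemma blocks_law {M k n m : ℕ} (e : Fin k → Fin M) (he : Function.Injective e)
    (c : Fin m → Fin n) (hc : Function.Injective c) :
    (Measure.pi (fun _ : Fin M => gauss n)).map (fun G j i => G (e j) (c i))
      = Measure.pi (fun _ : Fin k => gauss m) := by
  have hm1 : Measurable (fun (G : Fin M → Fin n → ℝ) (j : Fin k) => G (e j)) :=
    measurable_pi_lambda _ fun j => measurable_pi_apply (e j)
  have hm0 : Measurable (fun (g : Fin n → ℝ) (i : Fin m) => g (c i)) :=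
    measurable_pi_lambda _ fun i => measurable_pi_apply (c i)
  have hm2 : Measurable (fun (H : Fin k → Fin n → ℝ) (j : Fin k) (i : Fin m) => H j (c i)) :=
    measurable_pi_lambda _ fun j => hm0.comp (measurable_pi_apply j)
  have hcomp : (fun (G : Fin M → Fin n → ℝ) (j : Fin k) (i : Fin m) => G (e j) (c i))
      = (fun (H : Fin k → Fin n → ℝ) (j : Fin k) (i : Fin m) => H j (c i))
        ∘ (fun (G : Fin M → Fin n → ℝ) (j : Fin k) => G (e j)) := rfl
  rw [hcomp, ← Measure.map_map hm2 hm1, blocks_pi_map_comp (gauss n) e he]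
  have h := Measure.pi_map_pi (μ := fun _ : Fin k => gauss n)
    (f := fun (_ : Fin k) (g : Fin n → ℝ) (i : Fin m) => g (c i))
    (hμ := fun _ => by rw [blocks_gauss_map c hc]; infer_instance)
    (fun _ => hm0.aemeasurable)
  rw [h]
  congr 1
  ext j : 1
  exact blocks_gauss_map c hc

/-- A product over a finset of a linear order as a product over `Fin` of its cardinality. -/
lemma blocks_prod_orderEmb {α : Type*} [LinearOrder α] (s : Finset α) (F : α → ℝ) :
    ∏ a ∈ s, F a = ∏ j : Fin s.card, F (s.orderEmbOfFin rfl j) := by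
  conv_lhs => rw [← Finset.map_orderEmbOfFin_univ s rfl]
  rw [Finset.prod_map]
  rfl

variable {J : Type*} [Fintype J] (b ω : J → ℝ)

/-- Pointwise factorisation of the partition function over the two blocks. -/
lemma blocks_Zc_eq (N1 N2 M : ℕ) (β : Fin M → Bool) (G : Fin M → Fin (N1 + N2) → ℝ) :
    Zc b ω (fun a : Fin M => if β a then blockCoef1 N1 N2 else blockCoef2 N1 N2) G
      = (∑ x1 : Fin N1 → Bool, ∏ a ∈ Finset.univ.filter (fun a => β a = true),
            (1 - uFun b ω
              (∑ i : Fin N1, G a (Fin.castAdd N2 i) * (Real.sqrt N1)⁻¹ * sg (x1 i))))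
        * (∑ x2 : Fin N2 → Bool, ∏ a ∈ Finset.univ.filter (fun a => β a = false),
            (1 - uFun b ω
              (∑ i : Fin N2, G a (Fin.natAdd N1 i) * (Real.sqrt N2)⁻¹ * sg (x2 i)))) := by
  unfold Zc
  rw [Finset.sum_mul_sum, ← Finset.sum_product', Finset.univ_product_univ,
    ← (Fin.appendEquiv N1 N2).sum_comp]
  refine Finset.sum_congr rfl fun p _ => ?_
  rw [← Finset.prod_filter_mul_prod_filter_not Finset.univ (fun a => β a = true)]
  congr 1
  · refine Finset.prod_congr rfl fun a ha => ?_
    have hβ : β a = true := (Finset.mem_filter.1 ha).2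
    simp only [hβ, if_true]
    congr 2
    rw [Fin.sum_univ_add]
    simp [blockCoef1, Fin.appendEquiv]
  · have hfil : Finset.filter (fun a => ¬ β a = true) Finset.univ
        = Finset.filter (fun a => β a = false) Finset.univ := by
      ext a; simp
    rw [hfil]
    refine Finset.prod_congr rfl fun a ha => ?_
    have hβ : β a = false := (Finset.mem_filter.1 ha).2
    simp only [hβ]
    congr 2
    rw [Fin.sum_univ_add]
    simp [blockCoef2, Fin.appendEquiv]

/-- A block partition function is the canonical partition function of a sub-array. -/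
lemma blocks_sum_eq_Zc {M n m : ℕ} (s : Finset (Fin M)) (c : Fin m → Fin n) (r : ℝ)
    (G : Fin M → Fin n → ℝ) :
    (∑ x : Fin m → Bool, ∏ a ∈ s, (1 - uFun b ω (∑ i : Fin m, G a (c i) * r * sg (x i))))
      = Zc b ω (fun (_ : Fin s.card) (_ : Fin m) => r)
          (fun j i => G (s.orderEmbOfFin rfl j) (c i)) := by
  unfold Zc
  refine Finset.sum_congr rfl fun x _ => ?_
  exact blocks_prod_orderEmb s _

theorem Ac_blocks {J : Type*} [Fintype J] (b ω : J → ℝ) (hb : ∀ j, 0 ≤ b j)
    (hb1 : ∑ j, b j < 1) (N1 N2 M : ℕ) (β : Fin M → Bool) :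
    Ac b ω (fun a : Fin M => if β a then blockCoef1 N1 N2 else blockCoef2 N1 N2)
      = Acan b ω N1 (Finset.univ.filter (fun a => β a = true)).card
        + Acan b ω N2 (Finset.univ.filter (fun a => β a = false)).card := by
  classical
  set s1 : Finset (Fin M) := Finset.univ.filter (fun a => β a = true) with hs1
  set s2 : Finset (Fin M) := Finset.univ.filter (fun a => β a = false) with hs2
  set Φ1 : (Fin M → Fin (N1 + N2) → ℝ) → (Fin s1.card → Fin N1 → ℝ) :=
    fun G j i => G (s1.orderEmbOfFin rfl j) (Fin.castAdd N2 i) with hΦ1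
  set Φ2 : (Fin M → Fin (N1 + N2) → ℝ) → (Fin s2.card → Fin N2 → ℝ) :=
    fun G j i => G (s2.orderEmbOfFin rfl j) (Fin.natAdd N1 i) with hΦ2
  have hm1 : Measurable Φ1 :=
    measurable_pi_lambda _ fun j => measurable_pi_lambda _ fun i =>
      (measurable_pi_apply (Fin.castAdd N2 i)).comp (measurable_pi_apply (s1.orderEmbOfFin rfl j))
  have hm2 : Measurable Φ2 :=
    measurable_pi_lambda _ fun j => measurable_pi_lambda _ fun i =>
      (measurable_pi_apply (Fin.natAdd N1 i)).comp (measurable_pi_apply (s2.orderEmbOfFin rfl j))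
  have hlaw1 : (Measure.pi (fun _ : Fin M => gauss (N1 + N2))).map Φ1
      = Measure.pi (fun _ : Fin s1.card => gauss N1) :=
    blocks_law (s1.orderEmbOfFin rfl) (s1.orderEmbOfFin rfl).injective (Fin.castAdd N2)
      (Fin.castAdd_injective N1 N2)
  have hlaw2 : (Measure.pi (fun _ : Fin M => gauss (N1 + N2))).map Φ2
      = Measure.pi (fun _ : Fin s2.card => gauss N2) :=
    blocks_law (s2.orderEmbOfFin rfl) (s2.orderEmbOfFin rfl).injective (Fin.natAdd N1)
      (Fin.natAdd_injective N2 N1)
  have hpt : ∀ G : Fin M → Fin (N1 + N2) → ℝ,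
      Real.log (Zc b ω (fun a : Fin M => if β a then blockCoef1 N1 N2 else blockCoef2 N1 N2) G)
        = Real.log (Zc b ω (fun (_ : Fin s1.card) (_ : Fin N1) => (Real.sqrt N1)⁻¹) (Φ1 G))
          + Real.log
            (Zc b ω (fun (_ : Fin s2.card) (_ : Fin N2) => (Real.sqrt N2)⁻¹) (Φ2 G)) := by
    intro G
    rw [blocks_Zc_eq, blocks_sum_eq_Zc b ω s1 (Fin.castAdd N2) _ G,
      blocks_sum_eq_Zc b ω s2 (Fin.natAdd N1) _ G,
      Real.log_mul (Zc_pos b ω hb hb1 _ _).ne' (Zc_pos b ω hb hb1 _ _).ne']
  have hi1 : Integrable (fun G => Real.log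
      (Zc b ω (fun (_ : Fin s1.card) (_ : Fin N1) => (Real.sqrt N1)⁻¹) (Φ1 G)))
      (Measure.pi (fun _ : Fin M => gauss (N1 + N2))) :=
    (integrable_log_Zc b ω hb hb1 _ _).comp_measurable hm1
  have hi2 : Integrable (fun G => Real.log
      (Zc b ω (fun (_ : Fin s2.card) (_ : Fin N2) => (Real.sqrt N2)⁻¹) (Φ2 G)))
      (Measure.pi (fun _ : Fin M => gauss (N1 + N2))) :=
    (integrable_log_Zc b ω hb hb1 _ _).comp_measurable hm2
  have e1 : ∫ G, Real.log
      (Zc b ω (fun (_ : Fin s1.card) (_ : Fin N1) => (Real.sqrt N1)⁻¹) (Φ1 G))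
      ∂(Measure.pi (fun _ : Fin M => gauss (N1 + N2))) = Acan b ω N1 s1.card := by
    unfold Acan Ac
    rw [← hlaw1, integral_map hm1.aemeasurable
      (measurable_log_Zc b ω _).aestronglyMeasurable]
  have e2 : ∫ G, Real.log
      (Zc b ω (fun (_ : Fin s2.card) (_ : Fin N2) => (Real.sqrt N2)⁻¹) (Φ2 G))
      ∂(Measure.pi (fun _ : Fin M => gauss (N1 + N2))) = Acan b ω N2 s2.card := by
    unfold Acan Ac
    rw [← hlaw2, integral_map hm2.aemeasurable
      (measurable_log_Zc b ω _).aestronglyMeasurable]
  rw [← e1, ← e2, ← integral_add hi1 hi2]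
  unfold Ac
  exact integral_congr_ae (Filter.Eventually.of_forall hpt)

end Vale.Agent.Lib.P157
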