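import Mathlib
import Vale.Agent.Lib.P157.Lim.Defs
import Vale.Agent.Lib.P157.Lim.ZcBasic

/-!
# P157: the interpolation chain

`M` patterns, each acting through `c1` with probability `p` and through `c2` with probability
`1 - p`, independently, give a smaller expected logarithm of the partition function than `M`
patterns acting through `c0`, given the one-pattern inequality for arbitrary positive weights.
-/

open MeasureTheory ProbabilityTheory

namespace Vale.Agent.Lib.P157

section chainGeneral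

/-- splitting off the first coordinate of a power measure -/
lemma chain_symm_cons {α : Type*} [MeasurableSpace α] (M : ℕ) (z : α × (Fin M → α)) :
    (MeasurableEquiv.piFinSuccAbove (fun _ : Fin (M + 1) => α) 0).symm z =
      (Fin.cons z.1 z.2 : Fin (M + 1) → α) := by
  rw [MeasurableEquiv.piFinSuccAbove_symm_apply]
  exact Fin.insertNth_zero' z.1 z.2

lemma chain_integral_pi_succ {α : Type*} [MeasurableSpace α] (μ : Measure α) [SigmaFinite μ]
    (M : ℕ) (H : (Fin (M + 1) → α) → ℝ) :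
    ∫ G, H G ∂(Measure.pi (fun _ : Fin (M + 1) => μ)) =
      ∫ z, H (Fin.cons z.1 z.2 : Fin (M + 1) → α)
        ∂(μ.prod (Measure.pi (fun _ : Fin M => μ))) := by
  have mp := measurePreserving_piFinSuccAbove (fun _ : Fin (M + 1) => μ) 0
  have h := mp.integral_comp'
    (fun z => H ((MeasurableEquiv.piFinSuccAbove (fun _ : Fin (M + 1) => α) 0).symm z))
  simp only [MeasurableEquiv.symm_apply_apply] at h
  rw [h]
  refine integral_congr_ae (Filter.Eventually.of_forall (fun z => ?_))
  show H _ = H _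
  rw [chain_symm_cons]

lemma chain_integrable_pi_succ {α : Type*} [MeasurableSpace α] (μ : Measure α) [SigmaFinite μ]
    (M : ℕ) (H : (Fin (M + 1) → α) → ℝ)
    (hH : Integrable H (Measure.pi (fun _ : Fin (M + 1) => μ))) :
    Integrable (fun z : α × (Fin M → α) => H (Fin.cons z.1 z.2 : Fin (M + 1) → α))
      (μ.prod (Measure.pi (fun _ : Fin M => μ))) := by
  have mp := (measurePreserving_piFinSuccAbove (fun _ : Fin (M + 1) => μ) 0).symm
  have h := (mp.integrable_comp_emb
    (MeasurableEquiv.piFinSuccAbove (fun _ : Fin (M + 1) => α) 0).symm.measurableEmbedding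
    (g := H)).2 hH
  have h2 : (H ∘ ⇑(MeasurableEquiv.piFinSuccAbove (fun _ : Fin (M + 1) => α) 0).symm) =
      fun z : α × (Fin M → α) => H (Fin.cons z.1 z.2 : Fin (M + 1) → α) := by
    funext z
    show H _ = H _
    rw [chain_symm_cons]
  rw [h2] at h
  exact h

/-- integral over a finite measurable space as a finite sum -/
lemma chain_fin_integral {Z : Type*} [Fintype Z] [MeasurableSpace Z] [MeasurableSingletonClass Z]
    (B : Measure Z) [IsFiniteMeasure B] (f : Z → ℝ) :
    ∫ z, f z ∂B = ∑ z, B.real {z} * f z := by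
  rw [integral_fintype Integrable.of_finite]
  rfl

lemma chain_fin_integrable {Z X : Type*} [Fintype Z] [MeasurableSpace Z]
    [MeasurableSingletonClass Z] (B : Measure Z) [IsFiniteMeasure B] [MeasurableSpace X]
    (μ : Measure X) (H : Z → X → ℝ) (hH : ∀ z, Integrable (H z) μ) :
    Integrable (fun g => ∫ z, H z g ∂B) μ := by
  have h : (fun g => ∫ z, H z g ∂B) = fun g => ∑ z, B.real {z} * H z g := by
    funext g
    exact chain_fin_integral B (fun z => H z g)
  rw [h]
  exact integrable_finsetSum _ (fun z _ => (hH z).const_mul _)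

lemma chain_fin_swap {Z X : Type*} [Fintype Z] [MeasurableSpace Z]
    [MeasurableSingletonClass Z] (B : Measure Z) [IsFiniteMeasure B] [MeasurableSpace X]
    (μ : Measure X) (H : Z → X → ℝ) (hH : ∀ z, Integrable (H z) μ) :
    ∫ z, ∫ g, H z g ∂μ ∂B = ∫ g, ∫ z, H z g ∂B ∂μ := by
  have h : (fun g => ∫ z, H z g ∂B) = fun g => ∑ z, B.real {z} * H z g := by
    funext g
    exact chain_fin_integral B (fun z => H z g)
  rw [h, chain_fin_integral B, integral_finsetSum _ (fun z _ => (hH z).const_mul _)]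
  refine Finset.sum_congr rfl (fun z _ => ?_)
  rw [integral_const_mul]

end chainGeneral

section chainCoin

lemma chain_bern_prob (p : ℝ) (hp0 : 0 ≤ p) (hp1 : p ≤ 1) : IsProbabilityMeasure (bern p) := by
  constructor
  unfold bern
  simp only [Measure.add_apply, Measure.smul_apply, measure_univ, smul_eq_mul, mul_one]
  rw [← ENNReal.ofReal_add hp0 (by linarith), show p + (1 - p) = 1 by ring, ENNReal.ofReal_one]

lemma chain_integral_bern (p : ℝ) (hp0 : 0 ≤ p) (hp1 : p ≤ 1) (f : Bool → ℝ) :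
    ∫ t, f t ∂(bern p) = p * f true + (1 - p) * f false := by
  unfold bern
  have h1 : IsFiniteMeasure (ENNReal.ofReal p • (Measure.dirac true : Measure Bool)) :=
    Measure.smul_finite _ ENNReal.ofReal_ne_top
  have h2 : IsFiniteMeasure (ENNReal.ofReal (1 - p) • (Measure.dirac false : Measure Bool)) :=
    Measure.smul_finite _ ENNReal.ofReal_ne_top
  rw [integral_add_measure Integrable.of_finite Integrable.of_finite, integral_smul_measure,
    integral_smul_measure, integral_dirac, integral_dirac, ENNReal.toReal_ofReal hp0,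
    ENNReal.toReal_ofReal (by linarith), smul_eq_mul, smul_eq_mul]

lemma chain_integral_coin (p : ℝ) (hp0 : 0 ≤ p) (hp1 : p ≤ 1) (M : ℕ)
    (F : (Fin (M + 1) → Bool) → ℝ) :
    ∫ β, F β ∂(Measure.pi (fun _ : Fin (M + 1) => bern p)) =
      p * ∫ β', F (Fin.cons true β' : Fin (M + 1) → Bool)
          ∂(Measure.pi (fun _ : Fin M => bern p)) +
        (1 - p) * ∫ β', F (Fin.cons false β' : Fin (M + 1) → Bool)
          ∂(Measure.pi (fun _ : Fin M => bern p)) := by
  have hprob := chain_bern_prob p hp0 hp1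
  rw [chain_integral_pi_succ (bern p) M F, integral_prod _ Integrable.of_finite,
    chain_integral_bern p hp0 hp1]

end chainCoin

section chainMain

variable {J : Type*} [Fintype J] (b ω : J → ℝ)

/-- the factor of one pattern `g` acting through the coefficient vector `c` -/
noncomputable def chainT {n : ℕ} (c g : Fin n → ℝ) (x : Fin n → Bool) : ℝ :=
  1 - uFun b ω (∑ i, g i * c i * sg (x i))

/-- the partition function with a weight `w` on the configurations -/
noncomputable def chainS {n M : ℕ} (w : (Fin n → Bool) → ℝ) (κ : Fin M → Fin n → ℝ)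
    (G : Fin M → Fin n → ℝ) : ℝ :=
  ∑ x, w x * ∏ a, chainT b ω (κ a) (G a) x

variable {n : ℕ}

lemma chain_T_pos (hb : ∀ j, 0 ≤ b j) (hb1 : ∑ j, b j < 1) (c g : Fin n → ℝ)
    (x : Fin n → Bool) : 0 < chainT b ω c g x :=
  one_sub_uFun_pos b ω hb hb1 _

lemma chain_S_lower (hb : ∀ j, 0 ≤ b j) (hb1 : ∑ j, b j < 1) {M : ℕ}
    (w : (Fin n → Bool) → ℝ) (hw : ∀ x, 0 < w x) (κ G : Fin M → Fin n → ℝ) :
    ∑ x, w x * (1 - ∑ j, b j) ^ M ≤ chainS b ω w κ G := by
  unfold chainS
  refine Finset.sum_le_sum (fun x _ => mul_le_mul_of_nonneg_left ?_ (hw x).le)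
  calc (1 - ∑ j, b j) ^ M = ∏ _a : Fin M, (1 - ∑ j, b j) := by simp
    _ ≤ ∏ a, chainT b ω (κ a) (G a) x :=
      Finset.prod_le_prod (fun _ _ => by linarith) (fun a _ => one_sub_uFun_lower b ω hb _)

lemma chain_S_upper (hb : ∀ j, 0 ≤ b j) (hb1 : ∑ j, b j < 1) {M : ℕ}
    (w : (Fin n → Bool) → ℝ) (hw : ∀ x, 0 < w x) (κ G : Fin M → Fin n → ℝ) :
    chainS b ω w κ G ≤ ∑ x, w x * (1 + ∑ j, b j) ^ M := by
  unfold chainS
  refine Finset.sum_le_sum (fun x _ => mul_le_mul_of_nonneg_left ?_ (hw x).le)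
  calc ∏ a, chainT b ω (κ a) (G a) x ≤ ∏ _a : Fin M, (1 + ∑ j, b j) :=
      Finset.prod_le_prod (fun a _ => (chain_T_pos b ω hb hb1 _ _ _).le)
        (fun a _ => one_sub_uFun_upper b ω hb _)
    _ = (1 + ∑ j, b j) ^ M := by simp

lemma chain_lo_pos (hb1 : ∑ j, b j < 1) (M : ℕ)
    (w : (Fin n → Bool) → ℝ) (hw : ∀ x, 0 < w x) :
    0 < ∑ x, w x * (1 - ∑ j, b j) ^ M :=
  Finset.sum_pos (fun x _ => mul_pos (hw x) (pow_pos (by linarith) _)) Finset.univ_nonempty

lemma chain_S_pos (hb : ∀ j, 0 ≤ b j) (hb1 : ∑ j, b j < 1) {M : ℕ}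
    (w : (Fin n → Bool) → ℝ) (hw : ∀ x, 0 < w x) (κ G : Fin M → Fin n → ℝ) :
    0 < chainS b ω w κ G :=
  lt_of_lt_of_le (chain_lo_pos b hb1 M w hw) (chain_S_lower b ω hb hb1 w hw κ G)

lemma chain_abs_log_le (hb : ∀ j, 0 ≤ b j) (hb1 : ∑ j, b j < 1) {M : ℕ}
    (w : (Fin n → Bool) → ℝ) (hw : ∀ x, 0 < w x) (κ G : Fin M → Fin n → ℝ) :
    |Real.log (chainS b ω w κ G)| ≤
      |Real.log (∑ x, w x * (1 - ∑ j, b j) ^ M)| + |Real.log (∑ x, w x * (1 + ∑ j, b j) ^ M)| := by
  have h1 := Real.log_le_log (chain_lo_pos b hb1 M w hw) (chain_S_lower b ω hb hb1 w hw κ G)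
  have h2 := Real.log_le_log (chain_S_pos b ω hb hb1 w hw κ G)
    (chain_S_upper b ω hb hb1 w hw κ G)
  have h3 := neg_abs_le (Real.log (∑ x, w x * (1 - ∑ j, b j) ^ M))
  have h4 := le_abs_self (Real.log (∑ x, w x * (1 + ∑ j, b j) ^ M))
  have h5 := abs_nonneg (Real.log (∑ x, w x * (1 - ∑ j, b j) ^ M))
  have h6 := abs_nonneg (Real.log (∑ x, w x * (1 + ∑ j, b j) ^ M))
  rw [abs_le]
  constructor
  · linarith
  · linarith

lemma chain_continuous_S {M : ℕ} (w : (Fin n → Bool) → ℝ) (κ : Fin M → Fin n → ℝ) :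
    Continuous (fun G : Fin M → Fin n → ℝ => chainS b ω w κ G) := by
  unfold chainS chainT
  have hu := continuous_uFun b ω
  fun_prop

lemma chain_integrable_log_S (hb : ∀ j, 0 ≤ b j) (hb1 : ∑ j, b j < 1) {M : ℕ}
    (w : (Fin n → Bool) → ℝ) (hw : ∀ x, 0 < w x) (κ : Fin M → Fin n → ℝ)
    (μ : Measure (Fin M → Fin n → ℝ)) [IsFiniteMeasure μ] :
    Integrable (fun G => Real.log (chainS b ω w κ G)) μ :=
  Integrable.of_bound
    (Real.measurable_log.comp (chain_continuous_S b ω w κ).measurable).aestronglyMeasurable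
    (|Real.log (∑ x, w x * (1 - ∑ j, b j) ^ M)| + |Real.log (∑ x, w x * (1 + ∑ j, b j) ^ M)|)
    (Filter.Eventually.of_forall fun G => by
      rw [Real.norm_eq_abs]
      exact chain_abs_log_le b ω hb hb1 w hw κ G)

/-- splitting off the first pattern: it becomes part of the weight -/
lemma chain_S_cons {M : ℕ} (w : (Fin n → Bool) → ℝ) (c : Fin n → ℝ) (κ' : Fin M → Fin n → ℝ)
    (g : Fin n → ℝ) (G' : Fin M → Fin n → ℝ) :
    chainS b ω w (Fin.cons c κ' : Fin (M + 1) → Fin n → ℝ)
        (Fin.cons g G' : Fin (M + 1) → Fin n → ℝ) =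
      chainS b ω (fun x => w x * chainT b ω c g x) κ' G' := by
  unfold chainS
  refine Finset.sum_congr rfl (fun x _ => ?_)
  rw [Fin.prod_univ_succ]
  simp only [Fin.cons_zero, Fin.cons_succ]
  rw [mul_assoc]

/-- the first pattern as the last factor -/
lemma chain_S_regroup {M : ℕ} (w : (Fin n → Bool) → ℝ) (c : Fin n → ℝ)
    (κ' : Fin M → Fin n → ℝ) (g : Fin n → ℝ) (G' : Fin M → Fin n → ℝ) :
    chainS b ω (fun x => w x * chainT b ω c g x) κ' G' =
      ∑ x, (w x * ∏ a, chainT b ω (κ' a) (G' a) x) * chainT b ω c g x := by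
  unfold chainS
  refine Finset.sum_congr rfl (fun x _ => ?_)
  ring

lemma chain_cons_const {α : Type*} (M : ℕ) (c : α) :
    (Fin.cons c (fun _ : Fin M => c) : Fin (M + 1) → α) = fun _ => c := by
  funext a
  refine Fin.cases ?_ (fun i => ?_) a
  · rw [Fin.cons_zero]
  · rw [Fin.cons_succ]

lemma chain_cons_true {α : Type*} (M : ℕ) (c1 c2 : α) (β' : Fin M → Bool) :
    (fun a : Fin (M + 1) => if (Fin.cons true β' : Fin (M + 1) → Bool) a then c1 else c2) =
      (Fin.cons c1 (fun a : Fin M => if β' a then c1 else c2) : Fin (M + 1) → α) := by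
  funext a
  refine Fin.cases ?_ (fun i => ?_) a
  · rw [Fin.cons_zero, Fin.cons_zero, if_pos rfl]
  · rw [Fin.cons_succ, Fin.cons_succ]

lemma chain_cons_false {α : Type*} (M : ℕ) (c1 c2 : α) (β' : Fin M → Bool) :
    (fun a : Fin (M + 1) => if (Fin.cons false β' : Fin (M + 1) → Bool) a then c1 else c2) =
      (Fin.cons c2 (fun a : Fin M => if β' a then c1 else c2) : Fin (M + 1) → α) := by
  funext a
  refine Fin.cases ?_ (fun i => ?_) a
  · rw [Fin.cons_zero, Fin.cons_zero, if_neg Bool.false_ne_true]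
  · rw [Fin.cons_succ, Fin.cons_succ]

/-- the logarithm of the partition function with the first pattern split off -/
noncomputable def chainD {M : ℕ} (w : (Fin n → Bool) → ℝ) (c : Fin n → ℝ)
    (κ' : Fin M → Fin n → ℝ) (z : (Fin n → ℝ) × (Fin M → Fin n → ℝ)) : ℝ :=
  Real.log (chainS b ω (fun x => w x * chainT b ω c z.1 x) κ' z.2)

lemma chain_integrable_D (hb : ∀ j, 0 ≤ b j) (hb1 : ∑ j, b j < 1) {M : ℕ}
    (w : (Fin n → Bool) → ℝ) (hw : ∀ x, 0 < w x) (c : Fin n → ℝ) (κ' : Fin M → Fin n → ℝ) :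
    Integrable (chainD b ω w c κ')
      ((gauss n).prod (Measure.pi (fun _ : Fin M => gauss n))) := by
  have h := chain_integrable_pi_succ (gauss n) M _
    (chain_integrable_log_S b ω hb hb1 w hw (Fin.cons c κ' : Fin (M + 1) → Fin n → ℝ)
      (Measure.pi (fun _ : Fin (M + 1) => gauss n)))
  have h2 : (fun z : (Fin n → ℝ) × (Fin M → Fin n → ℝ) =>
      Real.log (chainS b ω w (Fin.cons c κ' : Fin (M + 1) → Fin n → ℝ)
        (Fin.cons z.1 z.2 : Fin (M + 1) → Fin n → ℝ))) = chainD b ω w c κ' := by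
    funext z
    unfold chainD
    rw [chain_S_cons]
  rw [h2] at h
  exact h

lemma chain_integral_D {M : ℕ} (w : (Fin n → Bool) → ℝ) (c : Fin n → ℝ)
    (κ' : Fin M → Fin n → ℝ) :
    ∫ G, Real.log (chainS b ω w (Fin.cons c κ' : Fin (M + 1) → Fin n → ℝ) G)
        ∂(Measure.pi (fun _ : Fin (M + 1) => gauss n)) =
      ∫ z, chainD b ω w c κ' z ∂((gauss n).prod (Measure.pi (fun _ : Fin M => gauss n))) := by
  rw [chain_integral_pi_succ (gauss n) M]
  refine integral_congr_ae (Filter.Eventually.of_forall (fun z => ?_))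
  show Real.log _ = chainD b ω w c κ' z
  unfold chainD
  rw [chain_S_cons]

/-- the patterns other than the first one are replaced, using the induction hypothesis -/
lemma chain_step_B (hb : ∀ j, 0 ≤ b j) (hb1 : ∑ j, b j < 1) (c0 c1 c2 : Fin n → ℝ) (p : ℝ)
    (hp0 : 0 ≤ p) (hp1 : p ≤ 1) (M : ℕ)
    (ih : ∀ (w : (Fin n → Bool) → ℝ), (∀ x, 0 < w x) →
      ∫ β, (∫ G, Real.log (chainS b ω w (fun a : Fin M => if β a then c1 else c2) G)
          ∂(Measure.pi (fun _ : Fin M => gauss n))) ∂(Measure.pi (fun _ : Fin M => bern p))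
        ≤ ∫ G, Real.log (chainS b ω w (fun _ : Fin M => c0) G)
          ∂(Measure.pi (fun _ : Fin M => gauss n)))
    (w : (Fin n → Bool) → ℝ) (hw : ∀ x, 0 < w x) (c : Fin n → ℝ) :
    ∫ β', (∫ G, Real.log (chainS b ω w
        (Fin.cons c (fun a : Fin M => if β' a then c1 else c2) : Fin (M + 1) → Fin n → ℝ) G)
          ∂(Measure.pi (fun _ : Fin (M + 1) => gauss n)))
        ∂(Measure.pi (fun _ : Fin M => bern p))
      ≤ ∫ z, chainD b ω w c (fun _ : Fin M => c0) z
        ∂((gauss n).prod (Measure.pi (fun _ : Fin M => gauss n))) := by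
  have hprob := chain_bern_prob p hp0 hp1
  have h1 : ∀ β' : Fin M → Bool, (∫ G, Real.log (chainS b ω w
      (Fin.cons c (fun a : Fin M => if β' a then c1 else c2) : Fin (M + 1) → Fin n → ℝ) G)
        ∂(Measure.pi (fun _ : Fin (M + 1) => gauss n))) =
      ∫ g, (∫ G', chainD b ω w c (fun a : Fin M => if β' a then c1 else c2) (g, G')
        ∂(Measure.pi (fun _ : Fin M => gauss n))) ∂(gauss n) := by
    intro β'
    rw [chain_integral_D, integral_prod _ (chain_integrable_D b ω hb hb1 w hw c _)]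
  simp only [h1]
  rw [chain_fin_swap (Measure.pi (fun _ : Fin M => bern p)) (gauss n)
    (fun β' g => ∫ G', chainD b ω w c (fun a : Fin M => if β' a then c1 else c2) (g, G')
      ∂(Measure.pi (fun _ : Fin M => gauss n)))
    (fun β' => (chain_integrable_D b ω hb hb1 w hw c _).integral_prod_left)]
  rw [integral_prod _ (chain_integrable_D b ω hb hb1 w hw c _)]
  refine integral_mono (chain_fin_integrable _ _ _
    (fun β' => (chain_integrable_D b ω hb hb1 w hw c _).integral_prod_left))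
    (chain_integrable_D b ω hb hb1 w hw c _).integral_prod_left (fun g => ?_)
  exact ih (fun x => w x * chainT b ω c g x)
    (fun x => mul_pos (hw x) (chain_T_pos b ω hb hb1 c g x))

/-- the first pattern is replaced, using the one-pattern inequality -/
lemma chain_step_C (hb : ∀ j, 0 ≤ b j) (hb1 : ∑ j, b j < 1) (c0 c1 c2 : Fin n → ℝ) (p : ℝ)
    (hL : ∀ w : (Fin n → Bool) → ℝ, (∀ x, 0 < w x) →
      p * ∫ g, Real.log (∑ x, w x * chainT b ω c1 g x) ∂(gauss n)
        + (1 - p) * ∫ g, Real.log (∑ x, w x * chainT b ω c2 g x) ∂(gauss n)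
      ≤ ∫ g, Real.log (∑ x, w x * chainT b ω c0 g x) ∂(gauss n))
    (M : ℕ) (w : (Fin n → Bool) → ℝ) (hw : ∀ x, 0 < w x) :
    p * ∫ z, chainD b ω w c1 (fun _ : Fin M => c0) z
          ∂((gauss n).prod (Measure.pi (fun _ : Fin M => gauss n))) +
        (1 - p) * ∫ z, chainD b ω w c2 (fun _ : Fin M => c0) z
          ∂((gauss n).prod (Measure.pi (fun _ : Fin M => gauss n)))
      ≤ ∫ z, chainD b ω w c0 (fun _ : Fin M => c0) z
          ∂((gauss n).prod (Measure.pi (fun _ : Fin M => gauss n))) := by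
  have hD := fun c => chain_integrable_D b ω hb hb1 w hw c (fun _ : Fin M => c0)
  have e1 : p * ∫ z, chainD b ω w c1 (fun _ : Fin M => c0) z
          ∂((gauss n).prod (Measure.pi (fun _ : Fin M => gauss n))) +
        (1 - p) * ∫ z, chainD b ω w c2 (fun _ : Fin M => c0) z
          ∂((gauss n).prod (Measure.pi (fun _ : Fin M => gauss n))) =
      ∫ G', (p * ∫ g, chainD b ω w c1 (fun _ : Fin M => c0) (g, G') ∂(gauss n) +
        (1 - p) * ∫ g, chainD b ω w c2 (fun _ : Fin M => c0) (g, G') ∂(gauss n))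
        ∂(Measure.pi (fun _ : Fin M => gauss n)) := by
    rw [integral_add ((hD c1).integral_prod_right.const_mul p)
      ((hD c2).integral_prod_right.const_mul (1 - p)), integral_const_mul, integral_const_mul,
      integral_prod_symm _ (hD c1), integral_prod_symm _ (hD c2)]
  rw [e1, integral_prod_symm _ (hD c0)]
  refine integral_mono (((hD c1).integral_prod_right.const_mul p).add
    ((hD c2).integral_prod_right.const_mul (1 - p))) (hD c0).integral_prod_right (fun G' => ?_)
  have key : ∀ c : Fin n → ℝ,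
      (fun g : Fin n → ℝ => chainD b ω w c (fun _ : Fin M => c0) (g, G')) =
        fun g => Real.log (∑ x, (w x * ∏ a, chainT b ω c0 (G' a) x) * chainT b ω c g x) := by
    intro c
    funext g
    unfold chainD
    rw [chain_S_regroup]
  show p * ∫ g, chainD b ω w c1 (fun _ : Fin M => c0) (g, G') ∂(gauss n) +
      (1 - p) * ∫ g, chainD b ω w c2 (fun _ : Fin M => c0) (g, G') ∂(gauss n) ≤
    ∫ g, chainD b ω w c0 (fun _ : Fin M => c0) (g, G') ∂(gauss n)
  rw [key c1, key c2, key c0]
  exact hL (fun x => w x * ∏ a, chainT b ω c0 (G' a) x)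
    (fun x => mul_pos (hw x) (Finset.prod_pos (fun a _ => chain_T_pos b ω hb hb1 _ _ _)))

/-- the chain inequality with an arbitrary positive weight on the configurations -/
theorem chain_main (hb : ∀ j, 0 ≤ b j) (hb1 : ∑ j, b j < 1) (c0 c1 c2 : Fin n → ℝ) (p : ℝ)
    (hp0 : 0 ≤ p) (hp1 : p ≤ 1)
    (hL : ∀ w : (Fin n → Bool) → ℝ, (∀ x, 0 < w x) →
      p * ∫ g, Real.log (∑ x, w x * chainT b ω c1 g x) ∂(gauss n)
        + (1 - p) * ∫ g, Real.log (∑ x, w x * chainT b ω c2 g x) ∂(gauss n)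
      ≤ ∫ g, Real.log (∑ x, w x * chainT b ω c0 g x) ∂(gauss n)) :
    ∀ (M : ℕ) (w : (Fin n → Bool) → ℝ), (∀ x, 0 < w x) →
      ∫ β, (∫ G, Real.log (chainS b ω w (fun a : Fin M => if β a then c1 else c2) G)
          ∂(Measure.pi (fun _ : Fin M => gauss n))) ∂(Measure.pi (fun _ : Fin M => bern p))
        ≤ ∫ G, Real.log (chainS b ω w (fun _ : Fin M => c0) G)
          ∂(Measure.pi (fun _ : Fin M => gauss n)) := by
  have hprob := chain_bern_prob p hp0 hp1
  intro M
  induction M with
  | zero =>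
    intro w hw
    have h : ∀ β : Fin 0 → Bool,
        (∫ G, Real.log (chainS b ω w (fun a : Fin 0 => if β a then c1 else c2) G)
          ∂(Measure.pi (fun _ : Fin 0 => gauss n))) =
        ∫ G, Real.log (chainS b ω w (fun _ : Fin 0 => c0) G)
          ∂(Measure.pi (fun _ : Fin 0 => gauss n)) := by
      intro β
      refine integral_congr_ae (Filter.Eventually.of_forall (fun G => ?_))
      show Real.log _ = Real.log _
      unfold chainS
      simp only [Finset.univ_eq_empty, Finset.prod_empty]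
    simp only [h]
    rw [integral_const, probReal_univ, one_smul]
  | succ M ih =>
    intro w hw
    rw [chain_integral_coin p hp0 hp1 M]
    simp only [chain_cons_true, chain_cons_false]
    have hB1 := chain_step_B b ω hb hb1 c0 c1 c2 p hp0 hp1 M ih w hw c1
    have hB2 := chain_step_B b ω hb hb1 c0 c1 c2 p hp0 hp1 M ih w hw c2
    have hC := chain_step_C b ω hb hb1 c0 c1 c2 p hL M w hw
    have hD : ∫ G, Real.log (chainS b ω w (fun _ : Fin (M + 1) => c0) G)
          ∂(Measure.pi (fun _ : Fin (M + 1) => gauss n)) =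
        ∫ z, chainD b ω w c0 (fun _ : Fin M => c0) z
          ∂((gauss n).prod (Measure.pi (fun _ : Fin M => gauss n))) := by
      rw [← chain_integral_D, chain_cons_const]
    rw [hD]
    exact le_trans (add_le_add (mul_le_mul_of_nonneg_left hB1 hp0)
      (mul_le_mul_of_nonneg_left hB2 (by linarith))) hC

end chainMain

/-- `M` patterns, each acting through `c1` with probability `p` and through `c2` with
probability `1 - p`, independently, give a smaller expected logarithm of the partition function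
than `M` patterns acting through `c0`, given the one-pattern inequality `hL` for arbitrary
positive weights. -/
theorem mix_le_full {J : Type*} [Fintype J] (b ω : J → ℝ) (hb : ∀ j, 0 ≤ b j)
    (hb1 : ∑ j, b j < 1) {n : ℕ} (c0 c1 c2 : Fin n → ℝ) (p : ℝ) (hp0 : 0 ≤ p) (hp1 : p ≤ 1)
    (hL : ∀ w : (Fin n → Bool) → ℝ, (∀ x, 0 < w x) →
      p * ∫ g, Real.log (∑ x, w x * (1 - uFun b ω (∑ i, g i * c1 i * sg (x i)))) ∂(gauss n)
        + (1 - p) * ∫ g, Real.log (∑ x, w x * (1 - uFun b ω (∑ i, g i * c2 i * sg (x i))))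
          ∂(gauss n)
      ≤ ∫ g, Real.log (∑ x, w x * (1 - uFun b ω (∑ i, g i * c0 i * sg (x i)))) ∂(gauss n))
    (M : ℕ) :
    ∫ β, Ac b ω (fun a : Fin M => if β a then c1 else c2) ∂(Measure.pi (fun _ : Fin M => bern p))
      ≤ Ac b ω (fun _ : Fin M => c0) := by
  have h := chain_main b ω hb hb1 c0 c1 c2 p hp0 hp1 hL M (fun _ => 1) (fun _ => one_pos)
  have hZ : ∀ (κ G : Fin M → Fin n → ℝ), chainS b ω (fun _ => 1) κ G = Zc b ω κ G := by
    intro κ G
    unfold chainS Zc chainT
    simp only [one_mul]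
  simp only [hZ] at h
  exact h

end Vale.Agent.Lib.P157
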