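import Mathlib
import Vale.Agent.Lib.P157.Lim.Defs

/-!
# P157: mean absolute deviation of the number of heads of independent coins
-/

open MeasureTheory ProbabilityTheory

namespace Vale.Agent.Lib.P157

theorem bern_isProbabilityMeasure (p : ℝ) (hp0 : 0 ≤ p) (hp1 : p ≤ 1) :
    IsProbabilityMeasure (bern p) := by
  constructor
  unfold bern
  simp only [Measure.add_apply, Measure.smul_apply, smul_eq_mul, measure_univ, mul_one]
  rw [← ENNReal.ofReal_add hp0 (by linarith)]
  simp

theorem integral_bern (p : ℝ) (hp0 : 0 ≤ p) (hp1 : p ≤ 1) (F : Bool → ℝ) :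
    ∫ c, F c ∂(bern p) = p * F true + (1 - p) * F false := by
  have h1 : (0 : ℝ) ≤ 1 - p := by linarith
  unfold bern
  have i1 : IsFiniteMeasure (ENNReal.ofReal p • (Measure.dirac true : Measure Bool)) :=
    Measure.smul_finite _ ENNReal.ofReal_ne_top
  have i2 : IsFiniteMeasure (ENNReal.ofReal (1 - p) • (Measure.dirac false : Measure Bool)) :=
    Measure.smul_finite _ ENNReal.ofReal_ne_top
  rw [integral_add_measure (Integrable.of_finite) (Integrable.of_finite),
    integral_smul_measure, integral_smul_measure, integral_dirac, integral_dirac]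
  simp [ENNReal.toReal_ofReal hp0, ENNReal.toReal_ofReal h1]

/-- On a probability space, the mean of `|Y|` is at most the square root of the mean of `Y ^ 2`
(stated for finite spaces, where everything is integrable). -/
theorem coin_integral_abs_le_sqrt {Ω : Type*} [MeasurableSpace Ω] [Finite Ω]
    [MeasurableSingletonClass Ω] (μ : Measure Ω) [IsProbabilityMeasure μ] (Y : Ω → ℝ) :
    ∫ ω, |Y ω| ∂μ ≤ Real.sqrt (∫ ω, Y ω ^ 2 ∂μ) := by
  set c : ℝ := ∫ ω, |Y ω| ∂μ with hc
  have hc0 : 0 ≤ c := integral_nonneg (fun ω => abs_nonneg _)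
  have h1 : 0 ≤ ∫ ω, (|Y ω| - c) ^ 2 ∂μ := integral_nonneg (fun ω => sq_nonneg _)
  have h2 : ∫ ω, (|Y ω| - c) ^ 2 ∂μ = ∫ ω, Y ω ^ 2 ∂μ - c ^ 2 := by
    have e : ∀ ω, (|Y ω| - c) ^ 2 = Y ω ^ 2 - 2 * c * |Y ω| + c ^ 2 := by
      intro ω
      have := sq_abs (Y ω)
      nlinarith
    simp_rw [e]
    rw [integral_add (Integrable.of_finite) (Integrable.of_finite),
      integral_sub (Integrable.of_finite) (Integrable.of_finite), integral_const_mul,
      integral_const]
    simp only [probReal_univ, smul_eq_mul, one_mul]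
    rw [← hc]
    ring
  have h3 : c ^ 2 ≤ ∫ ω, Y ω ^ 2 ∂μ := by linarith
  calc c = Real.sqrt (c ^ 2) := (Real.sqrt_sq hc0).symm
    _ ≤ Real.sqrt (∫ ω, Y ω ^ 2 ∂μ) := Real.sqrt_le_sqrt h3

theorem bern_abs_dev (p : ℝ) (hp0 : 0 ≤ p) (hp1 : p ≤ 1) (M : ℕ) (m : ℝ) :
    ∫ β, |((Finset.univ.filter (fun a => β a = true)).card : ℝ) - m|
        ∂(Measure.pi (fun _ : Fin M => bern p))
      ≤ Real.sqrt (M * p * (1 - p)) + |M * p - m| := by
  have : IsProbabilityMeasure (bern p) := bern_isProbabilityMeasure p hp0 hp1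
  set μ : Measure (Fin M → Bool) := Measure.pi (fun _ : Fin M => bern p) with hμ
  let X : Fin M → Bool → ℝ := fun _ c => if c then 1 else 0
  have hX1 : ∀ i, ∫ c, X i c ∂(bern p) = p := by
    intro i
    rw [integral_bern p hp0 hp1]
    simp [X]
  have hX2 : ∀ i, ∫ c, (X i c) ^ 2 ∂(bern p) = p := by
    intro i
    rw [integral_bern p hp0 hp1]
    simp [X]
  have hmem : ∀ i, MemLp (X i) 2 (bern p) := fun i => MemLp.of_discrete
  have hK : ∀ β : Fin M → Bool,
      ((Finset.univ.filter (fun a => β a = true)).card : ℝ) = ∑ a, X a (β a) := by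
    intro β
    rw [Finset.natCast_card_filter]
  -- the mean
  have hmean : ∫ β, (∑ a, X a (β a)) ∂μ = M * p := by
    rw [integral_finsetSum _ (fun a _ => Integrable.of_finite)]
    have : ∀ a : Fin M, ∫ β : Fin M → Bool, X a (β a) ∂μ = p := by
      intro a
      rw [hμ, integral_comp_eval (μ := fun _ : Fin M => bern p) (i := a) (f := X a)
        (Integrable.of_finite).aestronglyMeasurable]
      exact hX1 a
    simp [this]
  -- the variance
  have hvar : Var[∑ i, fun ω : Fin M → Bool => X i (ω i); μ] = M * (p * (1 - p)) := by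
    rw [hμ, variance_sum_pi hmem]
    have : ∀ i : Fin M, Var[X i; bern p] = p * (1 - p) := by
      intro i
      rw [variance_eq_sub (hmem i)]
      have e1 : (∫ c, (X i ^ 2) c ∂(bern p)) = p := by
        simpa using hX2 i
      rw [e1, hX1 i]
      ring
    simp [this]
  have hfun : (∑ i, fun ω : Fin M → Bool => X i (ω i)) = fun β => ∑ a, X a (β a) := by
    funext β
    simp [Finset.sum_apply]
  have hsq : ∫ β, ((∑ a, X a (β a)) - M * p) ^ 2 ∂μ = M * p * (1 - p) := by
    have h := hvar
    rw [hfun, variance_eq_integral (Integrable.of_finite).aestronglyMeasurable.aemeasurable,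
      hmean] at h
    rw [h]
    ring
  -- conclusion
  have hle : ∀ β : Fin M → Bool,
      |((Finset.univ.filter (fun a => β a = true)).card : ℝ) - m|
        ≤ |(∑ a, X a (β a)) - M * p| + |M * p - m| := by
    intro β
    rw [hK β]
    have : (∑ a, X a (β a)) - m = ((∑ a, X a (β a)) - M * p) + (M * p - m) := by ring
    rw [this]
    exact abs_add_le _ _
  calc ∫ β, |((Finset.univ.filter (fun a => β a = true)).card : ℝ) - m| ∂μ
      ≤ ∫ β, (|(∑ a, X a (β a)) - M * p| + |M * p - m|) ∂μ :=
        integral_mono (Integrable.of_finite) (Integrable.of_finite) hle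
    _ = ∫ β, |(∑ a, X a (β a)) - M * p| ∂μ + |M * p - m| := by
        rw [integral_add (Integrable.of_finite) (Integrable.of_finite), integral_const]
        simp
    _ ≤ Real.sqrt (∫ β, ((∑ a, X a (β a)) - M * p) ^ 2 ∂μ) + |M * p - m| := by
        have := coin_integral_abs_le_sqrt μ (fun β => (∑ a, X a (β a)) - M * p)
        linarith
    _ = Real.sqrt (M * p * (1 - p)) + |M * p - m| := by rw [hsq]

end Vale.Agent.Lib.P157
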