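import Mathlib
import Vale.Agent.Lib.P157.Lim.Defs
import Vale.Agent.Lib.P157.Lim.ZcBasic

/-!
# P157: `Acan` is Lipschitz in the number of patterns

Adding one pattern changes `E log Z` by at most `-log (1 - ∑ b)`.
-/

open MeasureTheory ProbabilityTheory

namespace Vale.Agent.Lib.P157

variable {J : Type*} [Fintype J] (b ω : J → ℝ)

/-- Forgetting the last pattern is measure preserving. -/
lemma lip_measurePreserving_castSucc (n k : ℕ) :
    MeasurePreserving (fun G : Fin (k + 1) → Fin n → ℝ => fun a : Fin k => G (Fin.castSucc a))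
      (Measure.pi (fun _ : Fin (k + 1) => gauss n)) (Measure.pi (fun _ : Fin k => gauss n)) := by
  have h1 := measurePreserving_piFinSuccAbove (fun _ : Fin (k + 1) => gauss n) (Fin.last k)
  have h2 : MeasurePreserving (Prod.snd : (Fin n → ℝ) × (Fin k → Fin n → ℝ) → _)
      ((gauss n).prod (Measure.pi (fun _ : Fin k => gauss n)))
      (Measure.pi (fun _ : Fin k => gauss n)) := measurePreserving_snd
  have h3 := h2.comp h1
  have he : (fun G : Fin (k + 1) → Fin n → ℝ => fun a : Fin k => G (Fin.castSucc a))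
      = Prod.snd ∘ (MeasurableEquiv.piFinSuccAbove (fun _ : Fin (k + 1) => Fin n → ℝ)
        (Fin.last k)) := by
    funext G a
    simp [MeasurableEquiv.piFinSuccAbove, Fin.insertNthEquiv, Fin.init]
  rw [he]
  exact h3

/-- Pointwise comparison of the partition functions with `k + 1` and `k` patterns. -/
lemma lip_Zc_succ_bounds (hb : ∀ j, 0 ≤ b j) (hb1 : ∑ j, b j < 1) (n k : ℕ) (c : ℝ)
    (G : Fin (k + 1) → Fin n → ℝ) :
    (1 - ∑ j, b j) * Zc b ω (fun (_ : Fin k) (_ : Fin n) => c) (fun a => G (Fin.castSucc a))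
        ≤ Zc b ω (fun (_ : Fin (k + 1)) (_ : Fin n) => c) G ∧
      Zc b ω (fun (_ : Fin (k + 1)) (_ : Fin n) => c) G
        ≤ (1 + ∑ j, b j) * Zc b ω (fun (_ : Fin k) (_ : Fin n) => c)
            (fun a => G (Fin.castSucc a)) := by
  unfold Zc
  rw [Finset.mul_sum, Finset.mul_sum]
  constructor
  · refine Finset.sum_le_sum fun x _ => ?_
    rw [Fin.prod_univ_castSucc]
    have hpos : 0 < ∏ a : Fin k, (1 - uFun b ω (∑ i, G (Fin.castSucc a) i * c * sg (x i))) :=
      Finset.prod_pos fun _ _ => one_sub_uFun_pos b ω hb hb1 _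
    have hl := one_sub_uFun_lower b ω hb (∑ i, G (Fin.last k) i * c * sg (x i))
    rw [mul_comm]
    exact mul_le_mul_of_nonneg_left hl hpos.le
  · refine Finset.sum_le_sum fun x _ => ?_
    rw [Fin.prod_univ_castSucc]
    have hpos : 0 < ∏ a : Fin k, (1 - uFun b ω (∑ i, G (Fin.castSucc a) i * c * sg (x i))) :=
      Finset.prod_pos fun _ _ => one_sub_uFun_pos b ω hb hb1 _
    have hu := one_sub_uFun_upper b ω hb (∑ i, G (Fin.last k) i * c * sg (x i))
    rw [mul_comm (1 + ∑ j, b j)]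
    exact mul_le_mul_of_nonneg_left hu hpos.le

/-- Pointwise comparison of the logarithms. -/
lemma lip_abs_log_Zc_succ_sub (hb : ∀ j, 0 ≤ b j) (hb1 : ∑ j, b j < 1) (n k : ℕ) (c : ℝ)
    (G : Fin (k + 1) → Fin n → ℝ) :
    |Real.log (Zc b ω (fun (_ : Fin (k + 1)) (_ : Fin n) => c) G)
        - Real.log (Zc b ω (fun (_ : Fin k) (_ : Fin n) => c) (fun a => G (Fin.castSucc a)))|
      ≤ -Real.log (1 - ∑ j, b j) := by
  have h0 := sum_b_nonneg b hb
  have h1 : 0 < 1 - ∑ j, b j := by linarith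
  have h2 : 0 < 1 + ∑ j, b j := by linarith
  obtain ⟨hlo, hhi⟩ := lip_Zc_succ_bounds b ω hb hb1 n k c G
  have hZ : 0 < Zc b ω (fun (_ : Fin k) (_ : Fin n) => c) (fun a => G (Fin.castSucc a)) :=
    Zc_pos b ω hb hb1 _ _
  have hZ' : 0 < Zc b ω (fun (_ : Fin (k + 1)) (_ : Fin n) => c) G := Zc_pos b ω hb hb1 _ _
  have e1 := Real.log_le_log (mul_pos h1 hZ) hlo
  have e2 := Real.log_le_log hZ' hhi
  rw [Real.log_mul h1.ne' hZ.ne'] at e1
  rw [Real.log_mul h2.ne' hZ.ne'] at e2
  have e3 := log_one_add_le b hb hb1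
  rw [abs_le]
  constructor <;> linarith

/-- One step: adding one pattern changes `Acan` by at most `-log (1 - ∑ b)`. -/
lemma lip_Acan_succ (hb : ∀ j, 0 ≤ b j) (hb1 : ∑ j, b j < 1) (n k : ℕ) :
    |Acan b ω n (k + 1) - Acan b ω n k| ≤ -Real.log (1 - ∑ j, b j) := by
  set c : ℝ := (Real.sqrt n)⁻¹ with hc
  have hmp := lip_measurePreserving_castSucc n k
  have hk : Acan b ω n k = ∫ G, Real.log (Zc b ω (fun (_ : Fin k) (_ : Fin n) => c)
      (fun a => G (Fin.castSucc a))) ∂(Measure.pi (fun _ : Fin (k + 1) => gauss n)) := by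
    unfold Acan Ac
    rw [← hmp.map_eq]
    rw [integral_map hmp.measurable.aemeasurable
      (measurable_log_Zc b ω _).aestronglyMeasurable]
  have hk1 : Acan b ω n (k + 1) = ∫ G, Real.log (Zc b ω (fun (_ : Fin (k + 1)) (_ : Fin n) => c)
      G) ∂(Measure.pi (fun _ : Fin (k + 1) => gauss n)) := rfl
  have hi1 : Integrable (fun G => Real.log (Zc b ω (fun (_ : Fin (k + 1)) (_ : Fin n) => c) G))
      (Measure.pi (fun _ : Fin (k + 1) => gauss n)) := integrable_log_Zc b ω hb hb1 _ _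
  have hi2 : Integrable (fun G : Fin (k + 1) → Fin n → ℝ =>
      Real.log (Zc b ω (fun (_ : Fin k) (_ : Fin n) => c) (fun a => G (Fin.castSucc a))))
      (Measure.pi (fun _ : Fin (k + 1) => gauss n)) :=
    (hmp.integrable_comp (measurable_log_Zc b ω _).aestronglyMeasurable).2
      (integrable_log_Zc b ω hb hb1 _ _)
  rw [hk, hk1, ← integral_sub hi1 hi2]
  have h := norm_integral_le_of_norm_le_const
    (μ := Measure.pi (fun _ : Fin (k + 1) => gauss n))
    (f := fun G => Real.log (Zc b ω (fun (_ : Fin (k + 1)) (_ : Fin n) => c) G)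
      - Real.log (Zc b ω (fun (_ : Fin k) (_ : Fin n) => c) (fun a => G (Fin.castSucc a))))
    (C := -Real.log (1 - ∑ j, b j))
    (Filter.Eventually.of_forall fun G => by
      simpa [Real.norm_eq_abs] using lip_abs_log_Zc_succ_sub b ω hb hb1 n k c G)
  simpa [Real.norm_eq_abs] using h

/-- Telescoping: `m` extra patterns. -/
lemma lip_Acan_add (hb : ∀ j, 0 ≤ b j) (hb1 : ∑ j, b j < 1) (n k m : ℕ) :
    |Acan b ω n (k + m) - Acan b ω n k| ≤ -Real.log (1 - ∑ j, b j) * m := by
  induction m with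
  | zero => simp
  | succ m ih =>
    have h1 := lip_Acan_succ b ω hb hb1 n (k + m)
    have h2 : Acan b ω n (k + (m + 1)) - Acan b ω n k
        = (Acan b ω n (k + m + 1) - Acan b ω n (k + m))
          + (Acan b ω n (k + m) - Acan b ω n k) := by
      rw [← add_assoc]; ring
    rw [h2]
    refine (abs_add_le _ _).trans ?_
    push_cast
    linarith

/-- `Acan` is Lipschitz in the number of patterns, with constant `-log (1 - ∑ b)`. -/
theorem Acan_lipschitz (hb : ∀ j, 0 ≤ b j)
    (hb1 : ∑ j, b j < 1) (n k k' : ℕ) :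
    |Acan b ω n k - Acan b ω n k'| ≤ -Real.log (1 - ∑ j, b j) * |(k : ℝ) - k'| := by
  rcases le_total k' k with h | h
  · obtain ⟨m, rfl⟩ := Nat.exists_eq_add_of_le h
    have := lip_Acan_add b ω hb hb1 n k' m
    have e : |((k' + m : ℕ) : ℝ) - k'| = m := by
      push_cast
      rw [add_sub_cancel_left, abs_of_nonneg (Nat.cast_nonneg m)]
    rw [e]
    exact this
  · obtain ⟨m, rfl⟩ := Nat.exists_eq_add_of_le h
    have := lip_Acan_add b ω hb hb1 n k m
    have e : |(k : ℝ) - ((k + m : ℕ) : ℝ)| = m := by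
      push_cast
      rw [sub_add_cancel_left, abs_neg, abs_of_nonneg (Nat.cast_nonneg m)]
    rw [e, abs_sub_comm]
    exact this

end Vale.Agent.Lib.P157
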