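import Mathlib
import Vale.Agent.Lib.P157.Lim.Defs

/-!
# P157: from moment inequalities to an inequality for `E log (1 - T)`

`log (1 - t) = - ∑_{r ≥ 1} t ^ r / r` with a uniform remainder for `|t| ≤ θ < 1`.
-/

open MeasureTheory ProbabilityTheory

namespace Vale.Agent.Lib.P157

theorem logseries_pointwise (t θ : ℝ) (hθ : θ < 1) (ht : |t| ≤ θ) (n : ℕ) :
    |(∑ i ∈ Finset.range n, t ^ (i + 1) / (i + 1)) + Real.log (1 - t)|
      ≤ θ ^ (n + 1) / (1 - θ) := by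
  have h1 : |t| < 1 := lt_of_le_of_lt ht hθ
  refine (Real.abs_log_sub_add_sum_range_le h1 n).trans ?_
  have h2 : 0 < 1 - θ := by linarith
  have hθ0 : 0 ≤ θ := (abs_nonneg t).trans ht
  have h3 : |t| ^ (n + 1) ≤ θ ^ (n + 1) := pow_le_pow_left₀ (abs_nonneg t) ht _
  have h4 : 1 - θ ≤ 1 - |t| := by linarith
  exact div_le_div₀ (pow_nonneg hθ0 _) h3 h2 h4

theorem logseries_aux {Ω : Type*} [MeasurableSpace Ω] (μ : Measure Ω) [IsProbabilityMeasure μ]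
    (T : Ω → ℝ) (hT : Measurable T) (θ : ℝ) (hθ : θ < 1) (h : ∀ x, |T x| ≤ θ) (n : ℕ) :
    |(∑ i ∈ Finset.range n, (∫ x, T x ^ (i + 1) ∂μ) / (i + 1))
        + ∫ x, Real.log (1 - T x) ∂μ| ≤ θ ^ (n + 1) / (1 - θ) := by
  have hpow : ∀ r : ℕ, Integrable (fun x => T x ^ r) μ := by
    intro r
    refine (integrable_const (1 : ℝ)).mono' (hT.pow_const r).aestronglyMeasurable
      (ae_of_all _ fun x => ?_)
    rw [Real.norm_eq_abs, abs_pow]
    exact pow_le_one₀ (abs_nonneg _) ((h x).trans hθ.le)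
  have hlog : Integrable (fun x => Real.log (1 - T x)) μ := by
    refine (integrable_const (θ ^ (0 + 1) / (1 - θ))).mono'
      (Real.measurable_log.comp (measurable_const.sub hT)).aestronglyMeasurable
      (ae_of_all _ fun x => ?_)
    have h0 := logseries_pointwise (T x) θ hθ (h x) 0
    rw [Finset.range_zero, Finset.sum_empty, zero_add] at h0
    exact h0
  have hterm : ∀ i : ℕ, Integrable (fun x => T x ^ (i + 1) / ((i : ℝ) + 1)) μ :=
    fun i => (hpow (i + 1)).div_const _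
  have hsum : (∑ i ∈ Finset.range n, (∫ x, T x ^ (i + 1) ∂μ) / (i + 1))
      + ∫ x, Real.log (1 - T x) ∂μ
      = ∫ x, ((∑ i ∈ Finset.range n, T x ^ (i + 1) / (i + 1)) + Real.log (1 - T x)) ∂μ := by
    rw [integral_add (integrable_finsetSum _ fun i _ => hterm i) hlog,
      integral_finsetSum _ fun i _ => hterm i]
    congr 1
    refine Finset.sum_congr rfl fun i _ => ?_
    rw [integral_div]
  rw [hsum]
  have hb := norm_integral_le_of_norm_le_const (μ := μ)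
    (f := fun x => (∑ i ∈ Finset.range n, T x ^ (i + 1) / (i + 1)) + Real.log (1 - T x))
    (C := θ ^ (n + 1) / (1 - θ))
    (ae_of_all _ fun x => by
      rw [Real.norm_eq_abs]; exact logseries_pointwise (T x) θ hθ (h x) n)
  simpa using hb

theorem log_one_sub_mix_ineq {Ω : Type*} [MeasurableSpace Ω] (μ : Measure Ω)
    [IsProbabilityMeasure μ] (T0 T1 T2 : Ω → ℝ) (hT0 : Measurable T0) (hT1 : Measurable T1)
    (hT2 : Measurable T2) (θ : ℝ) (hθ : θ < 1)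
    (h0 : ∀ x, |T0 x| ≤ θ) (h1 : ∀ x, |T1 x| ≤ θ) (h2 : ∀ x, |T2 x| ≤ θ)
    (p q : ℝ) (hp : 0 ≤ p) (hq : 0 ≤ q) (hpq : p + q = 1)
    (hmom : ∀ r : ℕ, ∫ x, T0 x ^ r ∂μ ≤ p * ∫ x, T1 x ^ r ∂μ + q * ∫ x, T2 x ^ r ∂μ) :
    p * ∫ x, Real.log (1 - T1 x) ∂μ + q * ∫ x, Real.log (1 - T2 x) ∂μ
      ≤ ∫ x, Real.log (1 - T0 x) ∂μ := by
  have hθ0 : 0 ≤ θ := by
    obtain ⟨x⟩ := nonempty_of_isProbabilityMeasure μ
    exact (abs_nonneg _).trans (h0 x)
  have hε : Filter.Tendsto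
      (fun n : ℕ => (∫ x, Real.log (1 - T0 x) ∂μ) + 2 * (θ ^ (n + 1) / (1 - θ)))
      Filter.atTop (nhds ((∫ x, Real.log (1 - T0 x) ∂μ) + 2 * (0 / (1 - θ)))) := by
    have hpw : Filter.Tendsto (fun n : ℕ => θ ^ (n + 1)) Filter.atTop (nhds 0) :=
      (tendsto_pow_atTop_nhds_zero_of_lt_one hθ0 hθ).comp (Filter.tendsto_add_atTop_nat 1)
    exact ((hpw.div_const _).const_mul 2).const_add _
  have hfinal : ∀ n : ℕ, p * ∫ x, Real.log (1 - T1 x) ∂μ + q * ∫ x, Real.log (1 - T2 x) ∂μ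
      ≤ (∫ x, Real.log (1 - T0 x) ∂μ) + 2 * (θ ^ (n + 1) / (1 - θ)) := by
    intro n
    have a0 := abs_le.1 (logseries_aux μ T0 hT0 θ hθ h0 n)
    have a1 := abs_le.1 (logseries_aux μ T1 hT1 θ hθ h1 n)
    have a2 := abs_le.1 (logseries_aux μ T2 hT2 θ hθ h2 n)
    have hM : (∑ i ∈ Finset.range n, (∫ x, T0 x ^ (i + 1) ∂μ) / ((i : ℝ) + 1))
        ≤ p * (∑ i ∈ Finset.range n, (∫ x, T1 x ^ (i + 1) ∂μ) / ((i : ℝ) + 1))
          + q * (∑ i ∈ Finset.range n, (∫ x, T2 x ^ (i + 1) ∂μ) / ((i : ℝ) + 1)) := by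
      rw [Finset.mul_sum, Finset.mul_sum, ← Finset.sum_add_distrib]
      refine Finset.sum_le_sum fun i _ => ?_
      have hi : (0 : ℝ) < (i : ℝ) + 1 := by positivity
      have h3 := div_le_div_of_nonneg_right (hmom (i + 1)) hi.le
      calc (∫ x, T0 x ^ (i + 1) ∂μ) / ((i : ℝ) + 1)
          ≤ (p * ∫ x, T1 x ^ (i + 1) ∂μ + q * ∫ x, T2 x ^ (i + 1) ∂μ) / ((i : ℝ) + 1) := h3
        _ = p * ((∫ x, T1 x ^ (i + 1) ∂μ) / ((i : ℝ) + 1))
            + q * ((∫ x, T2 x ^ (i + 1) ∂μ) / ((i : ℝ) + 1)) := by ring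
    have hpe : p * (θ ^ (n + 1) / (1 - θ)) + q * (θ ^ (n + 1) / (1 - θ))
        = θ ^ (n + 1) / (1 - θ) := by rw [← add_mul, hpq, one_mul]
    have b1 := mul_le_mul_of_nonneg_left a1.2 hp
    have b2 := mul_le_mul_of_nonneg_left a2.2 hq
    linarith [a0.1]
  have hlim := ge_of_tendsto' hε hfinal
  rw [zero_div, mul_zero, add_zero] at hlim
  exact hlim

end Vale.Agent.Lib.P157
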