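import Mathlib
import Vale.Agent.Lib.P157.Lim.Defs
import Vale.Agent.Lib.P157.Basic

/-!
# P157: a Gaussian moment inequality for sums of cosines
-/

open MeasureTheory ProbabilityTheory

namespace Vale.Agent.Lib.P157

instance moment_gauss_isProbabilityMeasure (n : ℕ) : IsProbabilityMeasure (gauss n) := by
  unfold gauss
  infer_instance

/-- The integral of the cosine against a centred real Gaussian law. -/
lemma moment_cos_gaussianReal (v : NNReal) :
    ∫ x, Real.cos x ∂(gaussianReal 0 v) = Real.exp (-(v : ℝ) / 2) := by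
  have h := charFun_gaussianReal (μ := 0) (v := v) 1
  rw [charFun_apply_real] at h
  have hint : Integrable (fun x : ℝ => Complex.exp (((1 : ℝ) : ℂ) * (x : ℂ) * Complex.I))
      (gaussianReal 0 v) := by
    refine Integrable.of_bound (C := 1) ?_ ?_
    · exact (by fun_prop : Continuous fun x : ℝ =>
        Complex.exp (((1 : ℝ) : ℂ) * (x : ℂ) * Complex.I)).aestronglyMeasurable
    · refine Filter.Eventually.of_forall (fun x => ?_)
      have : ((1 : ℝ) : ℂ) * (x : ℂ) * Complex.I = (x : ℂ) * Complex.I := by simp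
      rw [this, Complex.norm_exp_ofReal_mul_I]
  have hre := integral_re (𝕜 := ℂ) hint
  rw [h] at hre
  have e1 : ∀ x : ℝ, RCLike.re (Complex.exp (((1 : ℝ) : ℂ) * (x : ℂ) * Complex.I)) =
      Real.cos x := by
    intro x
    have : ((1 : ℝ) : ℂ) * (x : ℂ) * Complex.I = (x : ℂ) * Complex.I := by simp
    rw [this]
    exact Complex.exp_ofReal_mul_I_re x
  simp only [e1] at hre
  rw [hre]
  have e2 : ((1 : ℝ) : ℂ) * ((0 : ℝ) : ℂ) * Complex.I - ((v : ℝ) : ℂ) * ((1 : ℝ) : ℂ) ^ 2 / 2 =
      ((-(v : ℝ) / 2 : ℝ) : ℂ) := by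
    push_cast
    ring
  rw [e2]
  exact Complex.exp_ofReal_re _

/-- A linear form of a standard Gaussian vector is a centred Gaussian variable. -/
lemma moment_map_linear {n : ℕ} (a : Fin n → ℝ) :
    (gauss n).map (fun g : Fin n → ℝ => ∑ i, g i * a i) =
      gaussianReal 0 (∑ i, NNReal.mk (a i ^ 2) (sq_nonneg _)) := by
  unfold gauss
  set X : Fin n → (Fin n → ℝ) → ℝ := fun i g => g i * a i with hX
  have hind : iIndepFun X (Measure.pi (fun _ : Fin n => gaussianReal 0 1)) :=
    iIndepFun_pi (X := fun i (u : ℝ) => u * a i) (fun i => by fun_prop)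
  have hmeas : ∀ i, Measurable (X i) := fun i => by fun_prop
  have hlaw : ∀ i, (Measure.pi (fun _ : Fin n => gaussianReal 0 1)).map (X i)
      = gaussianReal 0 (NNReal.mk (a i ^ 2) (sq_nonneg _)) := by
    intro i
    have h1 : (Measure.pi (fun _ : Fin n => gaussianReal 0 1)).map (Function.eval i)
        = gaussianReal 0 1 := (measurePreserving_eval (fun _ : Fin n => gaussianReal 0 1) i).map_eq
    have h2 : X i = (fun u : ℝ => u * a i) ∘ (Function.eval i) := rfl
    rw [h2, ← Measure.map_map (by fun_prop) (by fun_prop), h1, gaussianReal_map_mul_const]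
    simp
  have hsum := map_sum_gaussian X _ hind hmeas hlaw Finset.univ
  have hfun : (fun g : Fin n → ℝ => ∑ i, g i * a i) = ∑ i, X i := by
    ext g
    simp [hX]
  rw [hfun, hsum]

/-- The Gaussian integral of the cosine of a linear form. -/
lemma moment_cos_integral {n : ℕ} (a : Fin n → ℝ) :
    ∫ g, Real.cos (∑ i, g i * a i) ∂(gauss n) = Real.exp (-(∑ i, a i ^ 2) / 2) := by
  have hm : Measurable (fun g : Fin n → ℝ => ∑ i, g i * a i) := by fun_prop
  have h := integral_map (μ := gauss n) hm.aemeasurable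
    (f := fun x : ℝ => Real.cos x) Real.continuous_cos.aestronglyMeasurable
  rw [moment_map_linear, moment_cos_gaussianReal] at h
  rw [← h]
  congr 2
  rw [NNReal.coe_sum]
  simp

/-- The weighted sum of cosines of linear forms. -/
noncomputable def moment_T {n : ℕ} {K : Type*} [Fintype K] (c : Fin n → ℝ) (β : K → ℝ)
    (y : K → Fin n → ℝ) (g : Fin n → ℝ) : ℝ :=
  ∑ m, β m * Real.cos (∑ i, g i * c i * y m i)

/-- The Gaussian moment of the weighted sum of cosines with an extra cosine factor. -/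
noncomputable def moment_I {n : ℕ} {K : Type*} [Fintype K] (c : Fin n → ℝ) (β : K → ℝ)
    (y : K → Fin n → ℝ) (r : ℕ) (z : Fin n → ℝ) : ℝ :=
  ∫ g, Real.cos (∑ i, g i * c i * z i) * moment_T c β y g ^ r ∂(gauss n)

lemma moment_T_abs_le {n : ℕ} {K : Type*} [Fintype K] (c : Fin n → ℝ) (β : K → ℝ)
    (y : K → Fin n → ℝ) (g : Fin n → ℝ) : |moment_T c β y g| ≤ ∑ m, |β m| := by
  unfold moment_T
  refine (Finset.abs_sum_le_sum_abs _ _).trans (Finset.sum_le_sum fun m _ => ?_)
  rw [abs_mul]
  exact mul_le_of_le_one_right (abs_nonneg _) (Real.abs_cos_le_one _)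

lemma moment_integrable {n : ℕ} {K : Type*} [Fintype K] (c : Fin n → ℝ) (β : K → ℝ)
    (y : K → Fin n → ℝ) (r : ℕ) (z : Fin n → ℝ) :
    Integrable (fun g : Fin n → ℝ => Real.cos (∑ i, g i * c i * z i) * moment_T c β y g ^ r)
      (gauss n) := by
  refine integrable_of_bounded (B := (∑ m, |β m|) ^ r) ?_ ?_
  · unfold moment_T
    exact (by fun_prop : Continuous fun g : Fin n → ℝ => Real.cos (∑ i, g i * c i * z i) *
      (∑ m, β m * Real.cos (∑ i, g i * c i * y m i)) ^ r).measurable
  · intro g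
    rw [abs_mul, abs_pow]
    calc |Real.cos (∑ i, g i * c i * z i)| * |moment_T c β y g| ^ r
        ≤ 1 * (∑ m, |β m|) ^ r :=
          mul_le_mul (Real.abs_cos_le_one _)
            (pow_le_pow_left₀ (abs_nonneg _) (moment_T_abs_le c β y g) r) (by positivity)
            zero_le_one
      _ = (∑ m, |β m|) ^ r := one_mul _

lemma moment_I_succ {n : ℕ} {K : Type*} [Fintype K] (c : Fin n → ℝ) (β : K → ℝ)
    (y : K → Fin n → ℝ) (r : ℕ) (z : Fin n → ℝ) :
    moment_I c β y (r + 1) z =
      ∑ m, β m / 2 * (moment_I c β y r (fun i => z i + y m i) +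
        moment_I c β y r (fun i => z i - y m i)) := by
  have hpt : ∀ g : Fin n → ℝ,
      Real.cos (∑ i, g i * c i * z i) * moment_T c β y g ^ (r + 1) =
      ∑ m, β m / 2 * (Real.cos (∑ i, g i * c i * (z i + y m i)) * moment_T c β y g ^ r +
        Real.cos (∑ i, g i * c i * (z i - y m i)) * moment_T c β y g ^ r) := by
    intro g
    have hs : ∀ m, Real.cos (∑ i, g i * c i * (z i + y m i)) +
        Real.cos (∑ i, g i * c i * (z i - y m i)) =
        2 * Real.cos (∑ i, g i * c i * z i) * Real.cos (∑ i, g i * c i * y m i) := by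
      intro m
      have e1 : ∑ i, g i * c i * (z i + y m i) =
          ∑ i, g i * c i * z i + ∑ i, g i * c i * y m i := by
        rw [← Finset.sum_add_distrib]
        exact Finset.sum_congr rfl (fun i _ => by ring)
      have e2 : ∑ i, g i * c i * (z i - y m i) =
          ∑ i, g i * c i * z i - ∑ i, g i * c i * y m i := by
        rw [← Finset.sum_sub_distrib]
        exact Finset.sum_congr rfl (fun i _ => by ring)
      rw [e1, e2, Real.cos_add, Real.cos_sub]
      ring
    have h2 : ∑ m, β m / 2 * (Real.cos (∑ i, g i * c i * (z i + y m i)) * moment_T c β y g ^ r +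
        Real.cos (∑ i, g i * c i * (z i - y m i)) * moment_T c β y g ^ r) =
        ∑ m, (Real.cos (∑ i, g i * c i * z i) * moment_T c β y g ^ r) *
          (β m * Real.cos (∑ i, g i * c i * y m i)) := by
      refine Finset.sum_congr rfl (fun m _ => ?_)
      rw [← add_mul, hs m]
      ring
    rw [h2, ← Finset.mul_sum, pow_succ]
    have h3 : ∑ m, β m * Real.cos (∑ i, g i * c i * y m i) = moment_T c β y g := rfl
    rw [h3]
    ring
  unfold moment_I
  simp_rw [hpt]
  rw [integral_finsetSum]
  · refine Finset.sum_congr rfl (fun m _ => ?_)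
    rw [integral_const_mul, integral_add]
    · exact moment_integrable c β y r (fun i => z i + y m i)
    · exact moment_integrable c β y r (fun i => z i - y m i)
  · intro m _
    exact ((moment_integrable c β y r (fun i => z i + y m i)).add
      (moment_integrable c β y r (fun i => z i - y m i))).const_mul _

lemma moment_I_mix {n : ℕ} (c0 c1 c2 : Fin n → ℝ) (p q : ℝ) (hp : 0 ≤ p) (hq : 0 ≤ q)
    (hpq : p + q = 1) (hc : ∀ i, c0 i ^ 2 = p * c1 i ^ 2 + q * c2 i ^ 2)
    {K : Type*} [Fintype K] (β : K → ℝ) (hβ : ∀ m, 0 ≤ β m) (y : K → Fin n → ℝ) (r : ℕ) :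
    ∀ z : Fin n → ℝ,
      moment_I c0 β y r z ≤ p * moment_I c1 β y r z + q * moment_I c2 β y r z := by
  induction r with
  | zero =>
    intro z
    unfold moment_I
    simp only [pow_zero, mul_one]
    have e : ∀ c : Fin n → ℝ, ∫ g, Real.cos (∑ i, g i * c i * z i) ∂(gauss n) =
        Real.exp (-(∑ i, (c i * z i) ^ 2) / 2) := by
      intro c
      have h := moment_cos_integral (fun i => c i * z i)
      simp only [← mul_assoc] at h
      exact h
    rw [e, e, e]
    have hsum : ∑ i, (c0 i * z i) ^ 2 =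
        p * ∑ i, (c1 i * z i) ^ 2 + q * ∑ i, (c2 i * z i) ^ 2 := by
      rw [Finset.mul_sum, Finset.mul_sum, ← Finset.sum_add_distrib]
      refine Finset.sum_congr rfl (fun i _ => ?_)
      rw [mul_pow, hc i]
      ring
    rw [hsum]
    have hconv := convexOn_exp.2 (Set.mem_univ (-(∑ i, (c1 i * z i) ^ 2) / 2))
      (Set.mem_univ (-(∑ i, (c2 i * z i) ^ 2) / 2)) hp hq hpq
    simp only [smul_eq_mul] at hconv
    have e3 : -(p * ∑ i, (c1 i * z i) ^ 2 + q * ∑ i, (c2 i * z i) ^ 2) / 2 =
        p * (-(∑ i, (c1 i * z i) ^ 2) / 2) + q * (-(∑ i, (c2 i * z i) ^ 2) / 2) := by ring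
    rw [e3]
    exact hconv
  | succ r ih =>
    intro z
    rw [moment_I_succ, moment_I_succ, moment_I_succ, Finset.mul_sum, Finset.mul_sum,
      ← Finset.sum_add_distrib]
    refine Finset.sum_le_sum (fun m _ => ?_)
    have h1 := ih (fun i => z i + y m i)
    have h2 := ih (fun i => z i - y m i)
    have hb : 0 ≤ β m / 2 := by
      have := hβ m
      positivity
    have h3 := mul_le_mul_of_nonneg_left (add_le_add h1 h2) hb
    calc β m / 2 * (moment_I c0 β y r (fun i => z i + y m i) +
          moment_I c0 β y r (fun i => z i - y m i))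
        ≤ β m / 2 * (p * moment_I c1 β y r (fun i => z i + y m i) +
            q * moment_I c2 β y r (fun i => z i + y m i) +
            (p * moment_I c1 β y r (fun i => z i - y m i) +
              q * moment_I c2 β y r (fun i => z i - y m i))) := h3
      _ = _ := by ring

theorem moment_mix_ineq {n : ℕ} (c0 c1 c2 : Fin n → ℝ) (p q : ℝ) (hp : 0 ≤ p) (hq : 0 ≤ q)
    (hpq : p + q = 1) (hc : ∀ i, c0 i ^ 2 = p * c1 i ^ 2 + q * c2 i ^ 2)
    {K : Type*} [Fintype K] (β : K → ℝ) (hβ : ∀ m, 0 ≤ β m) (y : K → Fin n → ℝ) (r : ℕ) :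
    ∫ g, (∑ m, β m * Real.cos (∑ i, g i * c0 i * y m i)) ^ r ∂(gauss n)
      ≤ p * ∫ g, (∑ m, β m * Real.cos (∑ i, g i * c1 i * y m i)) ^ r ∂(gauss n)
        + q * ∫ g, (∑ m, β m * Real.cos (∑ i, g i * c2 i * y m i)) ^ r ∂(gauss n) := by
  have h := moment_I_mix c0 c1 c2 p q hp hq hpq hc β hβ y r (fun _ => 0)
  unfold moment_I moment_T at h
  simpa using h

end Vale.Agent.Lib.P157
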