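import Mathlib
import Vale.Agent.Lib.P157.Lim.Defs
import Vale.Agent.Lib.P157.Lim.ZcBasic
import Vale.Agent.Lib.P157.Lim.Moment
import Vale.Agent.Lib.P157.Lim.LogSeries

/-!
# P157: the one-pattern inequality

Replacing a pattern acting through `c0` by a pattern acting through `c1` with probability `p`
and through `c2` with probability `q` lowers the expected logarithm, for every positive weight.
-/

open MeasureTheory ProbabilityTheory

namespace Vale.Agent.Lib.P157

theorem log_mix_ineq {J : Type*} [Fintype J] (b ω : J → ℝ) (hb : ∀ j, 0 ≤ b j)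
    (hb1 : ∑ j, b j < 1) {n : ℕ} (c0 c1 c2 : Fin n → ℝ) (p q : ℝ) (hp : 0 ≤ p) (hq : 0 ≤ q)
    (hpq : p + q = 1) (hc : ∀ i, c0 i ^ 2 = p * c1 i ^ 2 + q * c2 i ^ 2)
    (w : (Fin n → Bool) → ℝ) (hw : ∀ x, 0 < w x) :
    p * ∫ g, Real.log (∑ x, w x * (1 - uFun b ω (∑ i, g i * c1 i * sg (x i)))) ∂(gauss n)
      + q * ∫ g, Real.log (∑ x, w x * (1 - uFun b ω (∑ i, g i * c2 i * sg (x i)))) ∂(gauss n)
    ≤ ∫ g, Real.log (∑ x, w x * (1 - uFun b ω (∑ i, g i * c0 i * sg (x i)))) ∂(gauss n) := by
  classical
  have hβ0 := sum_b_nonneg b hb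
  set W : ℝ := ∑ x, w x with hW
  have hWpos : 0 < W := Finset.sum_pos (fun x _ => hw x) Finset.univ_nonempty
  -- the normalised averages
  set T : (Fin n → ℝ) → (Fin n → ℝ) → ℝ := fun c g =>
    ∑ x, w x / W * uFun b ω (∑ i, g i * c i * sg (x i)) with hT
  have hsumw : ∑ x, w x / W = 1 := by
    rw [← Finset.sum_div, ← hW, div_self hWpos.ne']
  have hTabs : ∀ c g, |T c g| ≤ ∑ j, b j := by
    intro c g
    simp only [hT]
    calc |∑ x, w x / W * uFun b ω (∑ i, g i * c i * sg (x i))|
        ≤ ∑ x, |w x / W * uFun b ω (∑ i, g i * c i * sg (x i))| := Finset.abs_sum_le_sum_abs _ _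
      _ ≤ ∑ x, w x / W * ∑ j, b j := by
          refine Finset.sum_le_sum fun x _ => ?_
          rw [abs_mul, abs_of_pos (div_pos (hw x) hWpos)]
          exact mul_le_mul_of_nonneg_left (abs_uFun_le b ω hb _) (div_pos (hw x) hWpos).le
      _ = ∑ j, b j := by rw [← Finset.sum_mul, hsumw, one_mul]
  have hTmeas : ∀ c, Measurable (T c) := by
    intro c
    have hu := continuous_uFun b ω
    have : Continuous (T c) := by
      simp only [hT]
      fun_prop
    exact this.measurable
  have hkey : ∀ c g, ∑ x, w x * (1 - uFun b ω (∑ i, g i * c i * sg (x i))) = W * (1 - T c g) := by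
    intro c g
    have h1 : W * T c g = ∑ x, w x * uFun b ω (∑ i, g i * c i * sg (x i)) := by
      simp only [hT]
      rw [Finset.mul_sum]
      refine Finset.sum_congr rfl fun x _ => ?_
      field_simp
    have h2 : ∑ x, w x * (1 - uFun b ω (∑ i, g i * c i * sg (x i)))
        = (∑ x, w x) - ∑ x, w x * uFun b ω (∑ i, g i * c i * sg (x i)) := by
      rw [← Finset.sum_sub_distrib]
      refine Finset.sum_congr rfl fun x _ => ?_
      ring
    rw [h2, ← h1, mul_sub, mul_one]
  have hlog : ∀ c g, Real.log (∑ x, w x * (1 - uFun b ω (∑ i, g i * c i * sg (x i))))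
      = Real.log W + Real.log (1 - T c g) := by
    intro c g
    rw [hkey]
    have h1 : 0 < 1 - T c g := by
      have := le_of_abs_le (hTabs c g)
      linarith
    exact Real.log_mul hWpos.ne' h1.ne'
  have hint : ∀ c, Integrable (fun g => Real.log (1 - T c g)) (gauss n) := by
    intro c
    refine Integrable.of_bound
      (Real.measurable_log.comp (measurable_const.sub (hTmeas c))).aestronglyMeasurable
      (-Real.log (1 - ∑ j, b j)) (Filter.Eventually.of_forall fun g => ?_)
    have h1 := hTabs c g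
    have h2 : 0 < 1 - ∑ j, b j := by linarith
    have h3 : 1 - ∑ j, b j ≤ 1 - T c g := by
      have := le_of_abs_le h1
      linarith
    have h4 : 1 - T c g ≤ 1 + ∑ j, b j := by
      have := neg_le_of_abs_le h1
      linarith
    have h5 := Real.log_le_log h2 h3
    have h6 := Real.log_le_log (lt_of_lt_of_le h2 h3) h4
    have h7 := log_one_add_le b hb hb1
    rw [Real.norm_eq_abs, abs_le]
    constructor <;> linarith
  have hI : ∀ c, ∫ g, Real.log (∑ x, w x * (1 - uFun b ω (∑ i, g i * c i * sg (x i)))) ∂(gauss n)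
      = Real.log W + ∫ g, Real.log (1 - T c g) ∂(gauss n) := by
    intro c
    simp_rw [hlog c]
    rw [integral_add (integrable_const _) (hint c)]
    simp
  rw [hI c0, hI c1, hI c2]
  -- the moment inequality, through the family indexed by pairs (x, j)
  have hmom : ∀ r : ℕ, ∫ g, T c0 g ^ r ∂(gauss n)
      ≤ p * ∫ g, T c1 g ^ r ∂(gauss n) + q * ∫ g, T c2 g ^ r ∂(gauss n) := by
    intro r
    have hrew : ∀ c g, T c g = ∑ m : (Fin n → Bool) × J,
        (w m.1 / W * b m.2) * Real.cos (∑ i, g i * c i * (ω m.2 * sg (m.1 i))) := by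
      intro c g
      simp only [hT, uFun]
      rw [Fintype.sum_prod_type]
      refine Finset.sum_congr rfl fun x _ => ?_
      rw [Finset.mul_sum]
      refine Finset.sum_congr rfl fun j _ => ?_
      have : ∑ i, g i * c i * (ω j * sg (x i)) = ω j * ∑ i, g i * c i * sg (x i) := by
        rw [Finset.mul_sum]
        refine Finset.sum_congr rfl fun i _ => ?_
        ring
      rw [this]
      ring
    have h := moment_mix_ineq c0 c1 c2 p q hp hq hpq hc
      (β := fun m : (Fin n → Bool) × J => w m.1 / W * b m.2)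
      (fun m => mul_nonneg (div_pos (hw m.1) hWpos).le (hb m.2))
      (fun m i => ω m.2 * sg (m.1 i)) r
    simp_rw [hrew]
    exact h
  have hmain := log_one_sub_mix_ineq (gauss n) (T c0) (T c1) (T c2) (hTmeas c0) (hTmeas c1)
    (hTmeas c2) (∑ j, b j) hb1 (hTabs c0) (hTabs c1) (hTabs c2) p q hp hq hpq hmom
  have : p * (Real.log W + ∫ g, Real.log (1 - T c1 g) ∂(gauss n))
      + q * (Real.log W + ∫ g, Real.log (1 - T c2 g) ∂(gauss n))
      = Real.log W + (p * ∫ g, Real.log (1 - T c1 g) ∂(gauss n)
        + q * ∫ g, Real.log (1 - T c2 g) ∂(gauss n)) := by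
    have : p * Real.log W + q * Real.log W = Real.log W := by
      rw [← add_mul, hpq, one_mul]
    linarith
  rw [this]
  linarith

end Vale.Agent.Lib.P157
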