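import Mathlib
import Vale.Agent.Lib.P157.Lim.Defs
import Vale.Agent.Lib.P157.Lim.ZcBasic
import Vale.Agent.Lib.P157.Lim.Chain
import Vale.Agent.Lib.P157.Lim.Lipschitz
import Vale.Agent.Lib.P157.Lim.Coin
import Vale.Agent.Lib.P157.Lim.Blocks
import Vale.Agent.Lib.P157.Lim.OnePattern

/-!
# P157: almost superadditivity of the expected log partition function
-/

open MeasureTheory ProbabilityTheory Filter

namespace Vale.Agent.Lib.P157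

variable {J : Type*} [Fintype J] (b ω : J → ℝ)

/-- The three coefficient vectors satisfy the mixing identity. -/
lemma coef_mix (N1 N2 : ℕ) (hN1 : 1 ≤ N1) (hN2 : 1 ≤ N2) (i : Fin (N1 + N2)) :
    ((Real.sqrt ((N1 + N2 : ℕ) : ℝ))⁻¹) ^ 2
      = ((N1 : ℝ) / ((N1 + N2 : ℕ) : ℝ)) * blockCoef1 N1 N2 i ^ 2
        + (1 - (N1 : ℝ) / ((N1 + N2 : ℕ) : ℝ)) * blockCoef2 N1 N2 i ^ 2 := by
  have h1 : (0 : ℝ) < N1 := by exact_mod_cast hN1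
  have h2 : (0 : ℝ) < N2 := by exact_mod_cast hN2
  have h3 : (0 : ℝ) < ((N1 + N2 : ℕ) : ℝ) := by push_cast; linarith
  have hs : ((Real.sqrt ((N1 + N2 : ℕ) : ℝ))⁻¹) ^ 2 = (((N1 + N2 : ℕ) : ℝ))⁻¹ := by
    rw [inv_pow, Real.sq_sqrt h3.le]
  rw [hs]
  refine Fin.addCases (fun i' => ?_) (fun i' => ?_) i
  · simp only [blockCoef1, blockCoef2, Fin.append_left]
    rw [inv_pow, Real.sq_sqrt h1.le]
    push_cast
    field_simp
    ring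
  · simp only [blockCoef1, blockCoef2, Fin.append_right]
    rw [inv_pow, Real.sq_sqrt h2.le]
    push_cast
    field_simp
    ring

/-- The number of tails is `M` minus the number of heads. -/
lemma card_false_eq {M : ℕ} (β : Fin M → Bool) :
    ((Finset.univ.filter (fun a => β a = false)).card : ℝ)
      = (M : ℝ) - (Finset.univ.filter (fun a => β a = true)).card := by
  classical
  have h := Finset.card_filter_add_card_filter_not (s := (Finset.univ : Finset (Fin M)))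
    (fun a => β a = true)
  have h' : (Finset.univ.filter (fun a => ¬ β a = true))
      = Finset.univ.filter (fun a => β a = false) := by
    ext a
    simp
  rw [h'] at h
  have h3 : (Finset.univ : Finset (Fin M)).card = M := by simp
  rw [h3] at h
  have h4 : ((Finset.univ.filter (fun a => β a = true)).card : ℝ)
      + (Finset.univ.filter (fun a => β a = false)).card = M := by exact_mod_cast h
  linarith

/-- Lower bound for the coin average of the two block systems. -/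
lemma mix_lower (hb : ∀ j, 0 ≤ b j) (hb1 : ∑ j, b j < 1) (N1 N2 M m1 m2 : ℕ) (p : ℝ)
    (hp0 : 0 ≤ p) (hp1 : p ≤ 1) :
    Acan b ω N1 m1 + Acan b ω N2 m2
        - (-Real.log (1 - ∑ j, b j)) * (Real.sqrt (M * p * (1 - p)) + |(M : ℝ) * p - m1|)
        - (-Real.log (1 - ∑ j, b j))
          * (Real.sqrt (M * p * (1 - p)) + |(M : ℝ) * p - ((M : ℝ) - m2)|)
      ≤ ∫ β : Fin M → Bool, (Acan b ω N1 (Finset.univ.filter (fun a => β a = true)).card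
          + Acan b ω N2 (Finset.univ.filter (fun a => β a = false)).card)
          ∂(Measure.pi (fun _ : Fin M => bern p)) := by
  classical
  have hC0nn : 0 ≤ -Real.log (1 - ∑ j, b j) := neg_log_one_sub_nonneg b hb hb1
  have hprob := bern_isProbabilityMeasure p hp0 hp1
  have hpt : ∀ β : Fin M → Bool,
      Acan b ω N1 m1 + Acan b ω N2 m2
        - (-Real.log (1 - ∑ j, b j))
          * |((Finset.univ.filter (fun a => β a = true)).card : ℝ) - m1|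
        - (-Real.log (1 - ∑ j, b j))
          * |((Finset.univ.filter (fun a => β a = true)).card : ℝ) - ((M : ℝ) - m2)|
      ≤ Acan b ω N1 (Finset.univ.filter (fun a => β a = true)).card
          + Acan b ω N2 (Finset.univ.filter (fun a => β a = false)).card := by
    intro β
    have e1 := Acan_lipschitz b ω hb hb1 N1 m1 (Finset.univ.filter (fun a => β a = true)).card
    have e2 := Acan_lipschitz b ω hb hb1 N2 m2 (Finset.univ.filter (fun a => β a = false)).card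
    rw [card_false_eq β] at e2
    have e1' := (abs_le.mp e1).2
    have e2' := (abs_le.mp e2).2
    have a1 : |(m1 : ℝ) - (Finset.univ.filter (fun a => β a = true)).card|
        = |((Finset.univ.filter (fun a => β a = true)).card : ℝ) - m1| := abs_sub_comm _ _
    have a2 : |(m2 : ℝ) - ((M : ℝ) - (Finset.univ.filter (fun a => β a = true)).card)|
        = |((Finset.univ.filter (fun a => β a = true)).card : ℝ) - ((M : ℝ) - m2)| := by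
      congr 1
      ring
    rw [a1] at e1'
    rw [a2] at e2'
    linarith
  have hint : ∀ F : (Fin M → Bool) → ℝ, Integrable F (Measure.pi (fun _ : Fin M => bern p)) :=
    fun F => Integrable.of_finite
  have hmono := integral_mono (hint _) (hint _) hpt
  have hdev1 := bern_abs_dev p hp0 hp1 M m1
  have hdev2 := bern_abs_dev p hp0 hp1 M ((M : ℝ) - m2)
  have hlhs : ∫ β : Fin M → Bool, (Acan b ω N1 m1 + Acan b ω N2 m2
        - (-Real.log (1 - ∑ j, b j))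
          * |((Finset.univ.filter (fun a => β a = true)).card : ℝ) - m1|
        - (-Real.log (1 - ∑ j, b j))
          * |((Finset.univ.filter (fun a => β a = true)).card : ℝ) - ((M : ℝ) - m2)|)
        ∂(Measure.pi (fun _ : Fin M => bern p))
      = Acan b ω N1 m1 + Acan b ω N2 m2
        - (-Real.log (1 - ∑ j, b j)) * ∫ β : Fin M → Bool,
            |((Finset.univ.filter (fun a => β a = true)).card : ℝ) - m1|
            ∂(Measure.pi (fun _ : Fin M => bern p))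
        - (-Real.log (1 - ∑ j, b j)) * ∫ β : Fin M → Bool,
            |((Finset.univ.filter (fun a => β a = true)).card : ℝ) - ((M : ℝ) - m2)|
            ∂(Measure.pi (fun _ : Fin M => bern p)) := by
    rw [integral_sub (hint _) (hint _), integral_sub (hint _) (hint _), integral_const_mul,
      integral_const_mul]
    simp
  rw [hlhs] at hmono
  have hfin1 := mul_le_mul_of_nonneg_left hdev1 hC0nn
  have hfin2 := mul_le_mul_of_nonneg_left hdev2 hC0nn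
  linarith

/-- Floor arithmetic, first block. -/
lemma floor_dev1 (α : ℝ) (hα : 0 ≤ α) (N1 N2 : ℕ) (hN1 : 1 ≤ N1) (hN2 : 1 ≤ N2) :
    |(⌊α * ((N1 + N2 : ℕ) : ℝ)⌋₊ : ℝ) * ((N1 : ℝ) / ((N1 + N2 : ℕ) : ℝ)) - ⌊α * N1⌋₊| ≤ 1 := by
  have h1 : (0 : ℝ) < N1 := by exact_mod_cast hN1
  have h2 : (0 : ℝ) < N2 := by exact_mod_cast hN2
  have hNpos : (0 : ℝ) < ((N1 + N2 : ℕ) : ℝ) := by push_cast; linarith
  have hp0 : 0 ≤ (N1 : ℝ) / ((N1 + N2 : ℕ) : ℝ) := div_nonneg h1.le hNpos.le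
  have hp1 : (N1 : ℝ) / ((N1 + N2 : ℕ) : ℝ) ≤ 1 := by
    rw [div_le_one hNpos]
    push_cast
    linarith
  have hMle : (⌊α * ((N1 + N2 : ℕ) : ℝ)⌋₊ : ℝ) ≤ α * ((N1 + N2 : ℕ) : ℝ) :=
    Nat.floor_le (mul_nonneg hα hNpos.le)
  have hMgt : α * ((N1 + N2 : ℕ) : ℝ) < (⌊α * ((N1 + N2 : ℕ) : ℝ)⌋₊ : ℝ) + 1 :=
    Nat.lt_floor_add_one _
  have hm1le : (⌊α * N1⌋₊ : ℝ) ≤ α * N1 := Nat.floor_le (mul_nonneg hα h1.le)
  have hm1gt : α * N1 < (⌊α * N1⌋₊ : ℝ) + 1 := Nat.lt_floor_add_one _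
  have e : (α * ((N1 + N2 : ℕ) : ℝ)) * ((N1 : ℝ) / ((N1 + N2 : ℕ) : ℝ)) = α * N1 := by
    field_simp
  have hA : (⌊α * ((N1 + N2 : ℕ) : ℝ)⌋₊ : ℝ) * ((N1 : ℝ) / ((N1 + N2 : ℕ) : ℝ)) ≤ α * N1 := by
    rw [← e]
    exact mul_le_mul_of_nonneg_right hMle hp0
  have hB : α * N1 - 1 ≤ (⌊α * ((N1 + N2 : ℕ) : ℝ)⌋₊ : ℝ) * ((N1 : ℝ) / ((N1 + N2 : ℕ) : ℝ)) := by
    have h3 : (α * ((N1 + N2 : ℕ) : ℝ) - 1) * ((N1 : ℝ) / ((N1 + N2 : ℕ) : ℝ))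
        ≤ (⌊α * ((N1 + N2 : ℕ) : ℝ)⌋₊ : ℝ) * ((N1 : ℝ) / ((N1 + N2 : ℕ) : ℝ)) :=
      mul_le_mul_of_nonneg_right (by linarith) hp0
    rw [sub_mul, e, one_mul] at h3
    linarith
  rw [abs_le]
  constructor <;> linarith

/-- Floor arithmetic, second block. -/
lemma floor_dev2 (α : ℝ) (hα : 0 ≤ α) (N1 N2 : ℕ) (hN1 : 1 ≤ N1) (hN2 : 1 ≤ N2) :
    |(⌊α * ((N1 + N2 : ℕ) : ℝ)⌋₊ : ℝ) * ((N1 : ℝ) / ((N1 + N2 : ℕ) : ℝ))
      - ((⌊α * ((N1 + N2 : ℕ) : ℝ)⌋₊ : ℝ) - ⌊α * N2⌋₊)| ≤ 1 := by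
  have h1 : (0 : ℝ) < N1 := by exact_mod_cast hN1
  have h2 : (0 : ℝ) < N2 := by exact_mod_cast hN2
  have hNpos : (0 : ℝ) < ((N1 + N2 : ℕ) : ℝ) := by push_cast; linarith
  have hq : 1 - (N1 : ℝ) / ((N1 + N2 : ℕ) : ℝ) = (N2 : ℝ) / ((N1 + N2 : ℕ) : ℝ) := by
    push_cast
    field_simp
    ring
  have hq0 : 0 ≤ (N2 : ℝ) / ((N1 + N2 : ℕ) : ℝ) := div_nonneg h2.le hNpos.le
  have hq1 : (N2 : ℝ) / ((N1 + N2 : ℕ) : ℝ) ≤ 1 := by
    rw [div_le_one hNpos]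
    push_cast
    linarith
  have hMle : (⌊α * ((N1 + N2 : ℕ) : ℝ)⌋₊ : ℝ) ≤ α * ((N1 + N2 : ℕ) : ℝ) :=
    Nat.floor_le (mul_nonneg hα hNpos.le)
  have hMgt : α * ((N1 + N2 : ℕ) : ℝ) < (⌊α * ((N1 + N2 : ℕ) : ℝ)⌋₊ : ℝ) + 1 :=
    Nat.lt_floor_add_one _
  have hm2le : (⌊α * N2⌋₊ : ℝ) ≤ α * N2 := Nat.floor_le (mul_nonneg hα h2.le)
  have hm2gt : α * N2 < (⌊α * N2⌋₊ : ℝ) + 1 := Nat.lt_floor_add_one _
  have e : (α * ((N1 + N2 : ℕ) : ℝ)) * ((N2 : ℝ) / ((N1 + N2 : ℕ) : ℝ)) = α * N2 := by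
    field_simp
  have hA : (⌊α * ((N1 + N2 : ℕ) : ℝ)⌋₊ : ℝ) * ((N2 : ℝ) / ((N1 + N2 : ℕ) : ℝ)) ≤ α * N2 := by
    rw [← e]
    exact mul_le_mul_of_nonneg_right hMle hq0
  have hB : α * N2 - 1 ≤ (⌊α * ((N1 + N2 : ℕ) : ℝ)⌋₊ : ℝ) * ((N2 : ℝ) / ((N1 + N2 : ℕ) : ℝ)) := by
    have h3 : (α * ((N1 + N2 : ℕ) : ℝ) - 1) * ((N2 : ℝ) / ((N1 + N2 : ℕ) : ℝ))
        ≤ (⌊α * ((N1 + N2 : ℕ) : ℝ)⌋₊ : ℝ) * ((N2 : ℝ) / ((N1 + N2 : ℕ) : ℝ)) :=
      mul_le_mul_of_nonneg_right (by linarith) hq0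
    rw [sub_mul, e, one_mul] at h3
    linarith
  have hrew : (⌊α * ((N1 + N2 : ℕ) : ℝ)⌋₊ : ℝ) * ((N1 : ℝ) / ((N1 + N2 : ℕ) : ℝ))
      - ((⌊α * ((N1 + N2 : ℕ) : ℝ)⌋₊ : ℝ) - ⌊α * N2⌋₊)
      = (⌊α * N2⌋₊ : ℝ)
        - (⌊α * ((N1 + N2 : ℕ) : ℝ)⌋₊ : ℝ) * ((N2 : ℝ) / ((N1 + N2 : ℕ) : ℝ)) := by
    rw [← hq]
    ring
  rw [hrew, abs_le]
  constructor <;> linarith

/-- The standard deviation of the number of heads. -/
lemma floor_var (α : ℝ) (hα : 0 ≤ α) (N1 N2 : ℕ) (hN1 : 1 ≤ N1) (hN2 : 1 ≤ N2) :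
    Real.sqrt ((⌊α * ((N1 + N2 : ℕ) : ℝ)⌋₊ : ℝ) * ((N1 : ℝ) / ((N1 + N2 : ℕ) : ℝ))
        * (1 - (N1 : ℝ) / ((N1 + N2 : ℕ) : ℝ)))
      ≤ Real.sqrt α * Real.sqrt ((N1 : ℝ) * N2 / (N1 + N2)) := by
  have h1 : (0 : ℝ) < N1 := by exact_mod_cast hN1
  have h2 : (0 : ℝ) < N2 := by exact_mod_cast hN2
  have hNpos : (0 : ℝ) < ((N1 + N2 : ℕ) : ℝ) := by push_cast; linarith
  have hq : 1 - (N1 : ℝ) / ((N1 + N2 : ℕ) : ℝ) = (N2 : ℝ) / ((N1 + N2 : ℕ) : ℝ) := by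
    push_cast
    field_simp
    ring
  have hp0 : 0 ≤ (N1 : ℝ) / ((N1 + N2 : ℕ) : ℝ) := div_nonneg h1.le hNpos.le
  have hq0 : 0 ≤ (N2 : ℝ) / ((N1 + N2 : ℕ) : ℝ) := div_nonneg h2.le hNpos.le
  have hMle : (⌊α * ((N1 + N2 : ℕ) : ℝ)⌋₊ : ℝ) ≤ α * ((N1 + N2 : ℕ) : ℝ) :=
    Nat.floor_le (mul_nonneg hα hNpos.le)
  rw [← Real.sqrt_mul hα, hq]
  apply Real.sqrt_le_sqrt
  have e : α * ((N1 : ℝ) * N2 / (N1 + N2))
      = (α * ((N1 + N2 : ℕ) : ℝ)) * ((N1 : ℝ) / ((N1 + N2 : ℕ) : ℝ))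
        * ((N2 : ℝ) / ((N1 + N2 : ℕ) : ℝ)) := by
    push_cast
    field_simp
  rw [e]
  exact mul_le_mul_of_nonneg_right (mul_le_mul_of_nonneg_right hMle hp0) hq0

/-- Almost superadditivity of `N ↦ Acan N ⌊α N⌋`. -/
theorem Acan_almost_superadditive (hb : ∀ j, 0 ≤ b j) (hb1 : ∑ j, b j < 1) (α : ℝ) (hα : 0 ≤ α)
    (N1 N2 : ℕ) (hN1 : 1 ≤ N1) (hN2 : 1 ≤ N2) :
    Acan b ω N1 ⌊α * N1⌋₊ + Acan b ω N2 ⌊α * N2⌋₊
        - (2 * (-Real.log (1 - ∑ j, b j)) * Real.sqrt α)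
          * Real.sqrt ((N1 : ℝ) * N2 / (N1 + N2))
        - 2 * (-Real.log (1 - ∑ j, b j))
      ≤ Acan b ω (N1 + N2) ⌊α * ((N1 + N2 : ℕ) : ℝ)⌋₊ := by
  classical
  have hC0nn : 0 ≤ -Real.log (1 - ∑ j, b j) := neg_log_one_sub_nonneg b hb hb1
  have h1 : (0 : ℝ) < N1 := by exact_mod_cast hN1
  have h2 : (0 : ℝ) < N2 := by exact_mod_cast hN2
  have hNpos : (0 : ℝ) < ((N1 + N2 : ℕ) : ℝ) := by push_cast; linarith
  have hp0 : 0 ≤ (N1 : ℝ) / ((N1 + N2 : ℕ) : ℝ) := div_nonneg h1.le hNpos.le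
  have hp1 : (N1 : ℝ) / ((N1 + N2 : ℕ) : ℝ) ≤ 1 := by
    rw [div_le_one hNpos]
    push_cast
    linarith
  -- the chain
  have hchain := mix_le_full b ω hb hb1
    (fun _ : Fin (N1 + N2) => (Real.sqrt ((N1 + N2 : ℕ) : ℝ))⁻¹)
    (blockCoef1 N1 N2) (blockCoef2 N1 N2) ((N1 : ℝ) / ((N1 + N2 : ℕ) : ℝ)) hp0 hp1
    (fun w hw => log_mix_ineq b ω hb hb1 _ _ _ _ _ hp0 (by linarith) (by ring)
      (fun i => coef_mix N1 N2 hN1 hN2 i) w hw) ⌊α * ((N1 + N2 : ℕ) : ℝ)⌋₊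
  have hfull : Ac b ω (fun (_ : Fin ⌊α * ((N1 + N2 : ℕ) : ℝ)⌋₊) (_ : Fin (N1 + N2)) =>
      (Real.sqrt ((N1 + N2 : ℕ) : ℝ))⁻¹) = Acan b ω (N1 + N2) ⌊α * ((N1 + N2 : ℕ) : ℝ)⌋₊ := rfl
  rw [hfull] at hchain
  have hblocks : ∀ β : Fin ⌊α * ((N1 + N2 : ℕ) : ℝ)⌋₊ → Bool,
      Ac b ω (fun a => if β a then blockCoef1 N1 N2 else blockCoef2 N1 N2)
        = Acan b ω N1 (Finset.univ.filter (fun a => β a = true)).card
          + Acan b ω N2 (Finset.univ.filter (fun a => β a = false)).card :=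
    fun β => Ac_blocks b ω hb hb1 N1 N2 _ β
  simp_rw [hblocks] at hchain
  have hlow := mix_lower b ω hb hb1 N1 N2 ⌊α * ((N1 + N2 : ℕ) : ℝ)⌋₊ ⌊α * N1⌋₊ ⌊α * N2⌋₊
    ((N1 : ℝ) / ((N1 + N2 : ℕ) : ℝ)) hp0 hp1
  have hd1 := floor_dev1 α hα N1 N2 hN1 hN2
  have hd2 := floor_dev2 α hα N1 N2 hN1 hN2
  have hv := floor_var α hα N1 N2 hN1 hN2
  have hfin := hlow.trans hchain
  have k1 := mul_le_mul_of_nonneg_left (add_le_add hv hd1) hC0nn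
  have k2 := mul_le_mul_of_nonneg_left (add_le_add hv hd2) hC0nn
  linarith

end Vale.Agent.Lib.P157
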