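import Mathlib
import Vale.Agent.Lib.P157.Lim.Defs

/-!
# P157: Fekete lemma with a square-root correction

If `a (m + n) ≥ a m + a n - C * sqrt (m n / (m + n)) - D` and `a n ≤ E n`, then `a n / n`
converges.
-/

open MeasureTheory ProbabilityTheory

namespace Vale.Agent.Lib.P157

/-- `sqrt x + sqrt y - sqrt (x + y) ≥ (2/3) sqrt (x y / (x + y))` for positive reals. -/
theorem fekete_sqrt_ineq (x y : ℝ) (hx : 0 < x) (hy : 0 < y) :
    (2 / 3) * Real.sqrt (x * y / (x + y)) ≤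
      Real.sqrt x + Real.sqrt y - Real.sqrt (x + y) := by
  have hp0 : 0 < Real.sqrt x := Real.sqrt_pos.2 hx
  have hq0 : 0 < Real.sqrt y := Real.sqrt_pos.2 hy
  have hr0 : 0 < Real.sqrt (x + y) := Real.sqrt_pos.2 (by positivity)
  have hp2 : Real.sqrt x ^ 2 = x := Real.sq_sqrt hx.le
  have hq2 : Real.sqrt y ^ 2 = y := Real.sq_sqrt hy.le
  have hr2 : Real.sqrt (x + y) ^ 2 = x + y := Real.sq_sqrt (by positivity)
  have hs : Real.sqrt (x * y / (x + y)) = Real.sqrt x * Real.sqrt y / Real.sqrt (x + y) := by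
    rw [Real.sqrt_div (by positivity), Real.sqrt_mul hx.le]
  rw [hs]
  generalize Real.sqrt x = p at *
  generalize Real.sqrt y = q at *
  generalize Real.sqrt (x + y) = r at *
  have h4 : r ^ 2 = p ^ 2 + q ^ 2 := by rw [hr2, hp2, hq2]
  have h5 : 0 ≤ p * q := by positivity
  have key : r ^ 2 + (2 / 3) * (p * q) ≤ (p + q) * r := by
    have h1 : 0 ≤ r ^ 2 + (2 / 3) * (p * q) := by positivity
    have h2 : 0 ≤ (p + q) * r := by positivity
    have h3 : (r ^ 2 + (2 / 3) * (p * q)) ^ 2 ≤ ((p + q) * r) ^ 2 := by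
      have e1 : ((p + q) * r) ^ 2 = (p + q) ^ 2 * (p ^ 2 + q ^ 2) := by rw [mul_pow, h4]
      have e2 : (r ^ 2 + (2 / 3) * (p * q)) ^ 2 = (p ^ 2 + q ^ 2 + (2 / 3) * (p * q)) ^ 2 := by
        rw [h4]
      rw [e1, e2]
      nlinarith [mul_nonneg h5 (sq_nonneg (p - q)), mul_nonneg h5 h5]
    exact (sq_le_sq₀ h1 h2).1 h3
  rw [show (2 / 3) * (p * q / r) = ((2 / 3) * (p * q)) / r by ring, div_le_iff₀ hr0]
  nlinarith [key]

theorem tendsto_div_of_almost_superadditive (a : ℕ → ℝ) (C D E : ℝ) (hC : 0 ≤ C) (hD : 0 ≤ D)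
    (hbd : ∀ n : ℕ, a n ≤ E * n)
    (hsup : ∀ m n : ℕ, 1 ≤ m → 1 ≤ n →
      a m + a n - C * Real.sqrt ((m : ℝ) * n / (m + n)) - D ≤ a (m + n)) :
    ∃ L : ℝ, Filter.Tendsto (fun n : ℕ => a n / n) Filter.atTop (nhds L) := by
  have hκ0 : 0 ≤ 3 / 2 * C := by positivity
  let u : ℕ → ℝ := fun n => if n = 0 then 0 else -(a n - 3 / 2 * C * Real.sqrt n - D)
  have hu0 : u 0 = 0 := if_pos rfl
  have hupos : ∀ n : ℕ, 1 ≤ n → u n = -(a n - 3 / 2 * C * Real.sqrt n - D) :=
    fun n hn => if_neg (by omega)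
  have hsub : Subadditive u := by
    intro m n
    rcases Nat.eq_zero_or_pos m with rfl | hm
    · rw [Nat.zero_add, hu0, zero_add]
    rcases Nat.eq_zero_or_pos n with rfl | hn
    · rw [Nat.add_zero, hu0, add_zero]
    rw [hupos m hm, hupos n hn, hupos (m + n) (by omega)]
    have h1 := hsup m n hm hn
    have hm' : (0 : ℝ) < m := by exact_mod_cast hm
    have hn' : (0 : ℝ) < n := by exact_mod_cast hn
    have h2 := fekete_sqrt_ineq (m : ℝ) n hm' hn'
    have h3 := mul_le_mul_of_nonneg_left h2 hκ0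
    push_cast
    nlinarith [h1, h3]
  have hbdd : BddBelow (Set.range fun n => u n / n) := by
    refine ⟨-|E|, ?_⟩
    rintro _ ⟨n, rfl⟩
    show -|E| ≤ u n / n
    rcases Nat.eq_zero_or_pos n with rfl | hn
    · rw [hu0, zero_div]
      exact neg_nonpos.2 (abs_nonneg E)
    · have hn' : (0 : ℝ) < n := by exact_mod_cast hn
      rw [hupos n hn, le_div_iff₀ hn']
      have h1 := hbd n
      have h2 : 0 ≤ 3 / 2 * C * Real.sqrt n := mul_nonneg hκ0 (Real.sqrt_nonneg _)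
      have h3 : -|E| * n ≤ -E * n :=
        mul_le_mul_of_nonneg_right (neg_le_neg (le_abs_self E)) hn'.le
      linarith
  have hlim := hsub.tendsto_lim hbdd
  refine ⟨-hsub.lim + 3 / 2 * C * 0 + 0, ?_⟩
  have h1 : Filter.Tendsto (fun n : ℕ => Real.sqrt n / n) Filter.atTop (nhds 0) := by
    have h : Filter.Tendsto (fun n : ℕ => (Real.sqrt n)⁻¹) Filter.atTop (nhds 0) :=
      tendsto_inv_atTop_zero.comp (Real.tendsto_sqrt_atTop.comp tendsto_natCast_atTop_atTop)
    refine h.congr (fun n => ?_)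
    rw [Real.sqrt_div_self]
  have h2 : Filter.Tendsto (fun n : ℕ => D / n) Filter.atTop (nhds 0) :=
    tendsto_const_div_atTop_nhds_zero_nat D
  have h3 := ((hlim.neg).add (h1.const_mul (3 / 2 * C))).add h2
  refine h3.congr' ?_
  filter_upwards [Filter.eventually_ge_atTop 1] with n hn
  have hn' : (0 : ℝ) < n := by exact_mod_cast hn
  rw [hupos n hn]
  field_simp
  ring

end Vale.Agent.Lib.P157
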