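import Mathlib
import Vale.Agent.Lib.P157.Lim.Defs
import Vale.Agent.Lib.P157.Lim.ZcBasic
import Vale.Agent.Lib.P157.Lim.Fekete
import Vale.Agent.Lib.P157.Lim.Assembly

/-!
# P157: existence of the limiting pressure
-/

open MeasureTheory ProbabilityTheory Filter

namespace Vale.Agent.Lib.P157

variable {J : Type*} [Fintype J] (b ω : J → ℝ)

/-- The normalised expected log partition function converges. -/
theorem Acan_tendsto (hb : ∀ j, 0 ≤ b j) (hb1 : ∑ j, b j < 1) (α : ℝ) (hα : 0 ≤ α) :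
    ∃ L : ℝ, Tendsto (fun N : ℕ => Acan b ω N ⌊α * N⌋₊ / N) atTop (nhds L) := by
  have hC0nn : 0 ≤ -Real.log (1 - ∑ j, b j) := neg_log_one_sub_nonneg b hb hb1
  have hβ0 := sum_b_nonneg b hb
  refine tendsto_div_of_almost_superadditive (fun N : ℕ => Acan b ω N ⌊α * N⌋₊)
    (2 * (-Real.log (1 - ∑ j, b j)) * Real.sqrt α) (2 * (-Real.log (1 - ∑ j, b j)))
    (Real.log 2 + α * Real.log 2) (by positivity) (by positivity) ?_ ?_
  · intro N
    have h1 := Ac_le b ω hb hb1 (fun (_ : Fin ⌊α * N⌋₊) (_ : Fin N) => (Real.sqrt N)⁻¹)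
    have h2 : Real.log (1 + ∑ j, b j) ≤ Real.log 2 :=
      Real.log_le_log (by linarith) (by linarith)
    have h3 : (⌊α * N⌋₊ : ℝ) ≤ α * N := Nat.floor_le (mul_nonneg hα (Nat.cast_nonneg N))
    have h4 : (0 : ℝ) ≤ Real.log 2 := Real.log_nonneg (by norm_num)
    have h5 : (0 : ℝ) ≤ Real.log (1 + ∑ j, b j) := Real.log_nonneg (by linarith)
    have h6 : (Fintype.card (Fin ⌊α * N⌋₊) : ℝ) = ⌊α * N⌋₊ := by simp
    rw [h6] at h1
    have h7 : (⌊α * N⌋₊ : ℝ) * Real.log (1 + ∑ j, b j) ≤ (α * N) * Real.log 2 :=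
      mul_le_mul h3 h2 h5 (mul_nonneg hα (Nat.cast_nonneg N))
    show Acan b ω N ⌊α * N⌋₊ ≤ (Real.log 2 + α * Real.log 2) * N
    have h8 : Acan b ω N ⌊α * N⌋₊ = Ac b ω (fun (_ : Fin ⌊α * N⌋₊) (_ : Fin N) => (Real.sqrt N)⁻¹) :=
      rfl
    rw [h8]
    nlinarith
  · intro m n hm hn
    exact Acan_almost_superadditive b ω hb hb1 α hα m n hm hn

/-- The expected pressure in terms of `Acan`. -/
lemma pressure_eq (hb : ∀ j, 0 ≤ b j) (hb1 : ∑ j, b j < 1) (c : ℝ) (N M : ℕ) (hN : 1 ≤ N) :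
    ∫ G : Fin M → Fin N → ℝ, (1 / (N : ℝ)) * Real.log ((∑ x : Fin N → Bool,
        Real.exp (∑ a, (c + Real.log (1 - ∑ j, b j * Real.cos
          (ω j * ((∑ i, G a i * (if x i then 1 else -1)) / Real.sqrt N)))))) / 2 ^ N)
      ∂(Measure.pi (fun _ : Fin M => Measure.pi (fun _ : Fin N => gaussianReal 0 1)))
    = (M : ℝ) / N * c - Real.log 2 + Acan b ω N M / N := by
  have hNpos : (0 : ℝ) < N := by exact_mod_cast hN
  have hpt : ∀ G : Fin M → Fin N → ℝ, (1 / (N : ℝ)) * Real.log ((∑ x : Fin N → Bool,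
        Real.exp (∑ a, (c + Real.log (1 - ∑ j, b j * Real.cos
          (ω j * ((∑ i, G a i * (if x i then 1 else -1)) / Real.sqrt N)))))) / 2 ^ N)
      = ((M : ℝ) / N * c - Real.log 2)
        + (1 / (N : ℝ)) * Real.log (Zc b ω (fun (_ : Fin M) (_ : Fin N) => (Real.sqrt N)⁻¹) G) := by
    intro G
    have hterm : ∀ x : Fin N → Bool,
        Real.exp (∑ a, (c + Real.log (1 - ∑ j, b j * Real.cos
          (ω j * ((∑ i, G a i * (if x i then 1 else -1)) / Real.sqrt N)))))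
        = Real.exp (M * c) * ∏ a, (1 - uFun b ω (∑ i, G a i * (Real.sqrt N)⁻¹ * sg (x i))) := by
      intro x
      have hu : ∀ a : Fin M, (∑ j, b j * Real.cos
          (ω j * ((∑ i, G a i * (if x i then 1 else -1)) / Real.sqrt N)))
          = uFun b ω (∑ i, G a i * (Real.sqrt N)⁻¹ * sg (x i)) := by
        intro a
        unfold uFun
        have : (∑ i, G a i * (if x i then (1 : ℝ) else -1)) / Real.sqrt N
            = ∑ i, G a i * (Real.sqrt N)⁻¹ * sg (x i) := by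
          rw [Finset.sum_div]
          refine Finset.sum_congr rfl fun i _ => ?_
          unfold sg
          rw [div_eq_mul_inv]
          ring
        rw [this]
      simp_rw [hu]
      rw [Finset.sum_add_distrib, Real.exp_add]
      have e1 : ∑ _a : Fin M, c = (M : ℝ) * c := by simp
      have e2 : Real.exp (∑ a : Fin M,
          Real.log (1 - uFun b ω (∑ i, G a i * (Real.sqrt N)⁻¹ * sg (x i))))
          = ∏ a : Fin M, (1 - uFun b ω (∑ i, G a i * (Real.sqrt N)⁻¹ * sg (x i))) := by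
        rw [Real.exp_sum]
        refine Finset.prod_congr rfl fun a _ => ?_
        exact Real.exp_log (one_sub_uFun_pos b ω hb hb1 _)
      rw [e1, e2]
    simp_rw [hterm]
    rw [← Finset.mul_sum]
    have hZ : ∑ x : Fin N → Bool, ∏ a : Fin M,
        (1 - uFun b ω (∑ i, G a i * (Real.sqrt N)⁻¹ * sg (x i)))
        = Zc b ω (fun (_ : Fin M) (_ : Fin N) => (Real.sqrt N)⁻¹) G := rfl
    rw [hZ]
    have hZpos := Zc_pos b ω hb hb1 (fun (_ : Fin M) (_ : Fin N) => (Real.sqrt N)⁻¹) G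
    rw [Real.log_div (mul_pos (Real.exp_pos _) hZpos).ne' (by positivity),
      Real.log_mul (Real.exp_pos _).ne' hZpos.ne', Real.log_exp, Real.log_pow]
    field_simp
    ring
  simp_rw [hpt]
  have hint := integrable_log_Zc b ω hb hb1 (fun (_ : Fin M) (_ : Fin N) => (Real.sqrt N)⁻¹)
    (Measure.pi (fun _ : Fin M => Measure.pi (fun _ : Fin N => gaussianReal 0 1)))
  rw [integral_add (integrable_const _) (hint.const_mul _), integral_const_mul]
  have hA : ∫ G, Real.log (Zc b ω (fun (_ : Fin M) (_ : Fin N) => (Real.sqrt N)⁻¹) G)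
      ∂(Measure.pi (fun _ : Fin M => Measure.pi (fun _ : Fin N => gaussianReal 0 1)))
      = Acan b ω N M := rfl
  rw [hA]
  simp
  ring

/-- **Existence of the limiting pressure** for the potentials
`f s = c + log (1 - ∑ j, b j * cos (ω j * s))`, `b j ≥ 0`, `∑ j, b j < 1`, at every pattern
density `α > 0`, on the Ising cube. -/
theorem pressure_tendsto (hb : ∀ j, 0 ≤ b j) (hb1 : ∑ j, b j < 1) (c α : ℝ) (hα : 0 < α) :
    ∃ L : ℝ, Tendsto (fun N : ℕ =>
      ∫ G : Fin ⌊α * N⌋₊ → Fin N → ℝ, (1 / (N : ℝ)) * Real.log ((∑ x : Fin N → Bool,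
        Real.exp (∑ a, (c + Real.log (1 - ∑ j, b j * Real.cos
          (ω j * ((∑ i, G a i * (if x i then 1 else -1)) / Real.sqrt N)))))) / 2 ^ N)
      ∂(Measure.pi (fun _ : Fin ⌊α * N⌋₊ => Measure.pi (fun _ : Fin N => gaussianReal 0 1))))
      atTop (nhds L) := by
  obtain ⟨L, hL⟩ := Acan_tendsto b ω hb hb1 α hα.le
  refine ⟨α * c - Real.log 2 + L, ?_⟩
  have hfl : Tendsto (fun N : ℕ => (⌊α * (N : ℝ)⌋₊ : ℝ) / (N : ℝ)) atTop (nhds α) :=
    (tendsto_nat_floor_mul_div_atTop hα.le).comp tendsto_natCast_atTop_atTop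
  have hlim : Tendsto (fun N : ℕ => (⌊α * (N : ℝ)⌋₊ : ℝ) / (N : ℝ) * c - Real.log 2
      + Acan b ω N ⌊α * N⌋₊ / N) atTop (nhds (α * c - Real.log 2 + L)) :=
    ((hfl.mul_const c).sub_const _).add hL
  refine hlim.congr' ?_
  filter_upwards [eventually_ge_atTop 1] with N hN
  exact (pressure_eq b ω hb hb1 c N ⌊α * N⌋₊ hN).symm

end Vale.Agent.Lib.P157
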